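import Vale.Agent.P098.Cert.Regular

/-!
P098, the coefficient vector of the certificate in dimension five: quadratic polynomials in
`(s, P)`, found by linear programming and rounded to six decimals.
-/

namespace Vale.Agent.P098.Cert

noncomputable section

/-- A quadratic polynomial in `(s, P)`. -/
def quad (a b c d e f : ℝ) (p : ℝ × ℝ) : ℝ :=
  a + b * p.1 + c * p.2 + d * p.1 ^ 2 + e * (p.1 * p.2) + f * p.2 ^ 2

lemma contDiff_quad (a b c d e f : ℝ) {n : WithTop ℕ∞} : ContDiff ℝ n (quad a b c d e f) := by
  unfold quad; fun_prop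

/-- The jet of a quadratic polynomial, written out. -/
lemma jetOf_quad (a b c d e f s P : ℝ) :
    jetOf (quad a b c d e f) (s, P) =
      (quad a b c d e f (s, P), b + 2 * d * s + e * P, c + e * s + 2 * f * P) := by
  have h : HasFDerivAt (quad a b c d e f)
      ((b + 2 * d * s + e * P) • ContinuousLinearMap.fst ℝ ℝ ℝ +
        (c + e * s + 2 * f * P) • ContinuousLinearMap.snd ℝ ℝ ℝ) (s, P) := by
    have h1 : HasFDerivAt (fun p : ℝ × ℝ => p.1) (ContinuousLinearMap.fst ℝ ℝ ℝ) (s, P) := hasFDerivAt_fst
    have h2 : HasFDerivAt (fun p : ℝ × ℝ => p.2) (ContinuousLinearMap.snd ℝ ℝ ℝ) (s, P) := hasFDerivAt_snd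
    unfold quad
    refine ((((((hasFDerivAt_const a _).add (h1.const_mul b)).add (h2.const_mul c)).add
      ((h1.pow 2).const_mul d)).add ((h1.mul h2).const_mul e)).add ((h2.pow 2).const_mul f)).congr_fderiv ?_
    ext <;> simp <;> ring
  simp [jetOf, h.fderiv]

/-- The test coefficient. -/
def vecG : ℝ × ℝ → ℝ := quad (1 / 4) 0 0 0 0 0

/-- The coefficients of `T : b` and `T : b²`. -/
def vecM : Fin 2 → ℝ × ℝ → ℝ :=
  ![quad (-191187 / 1000000) (-40163 / 200000) (34257 / 1000000) (-121389 / 500000) (33067 / 250000) (21531 / 1000000),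
    quad (-13953 / 200000) (-12111 / 40000) (-7311 / 250000) (115647 / 500000) (344497 / 1000000) (56649 / 500000)]

/-- The coefficients of `b^j p`. -/
def vecC : Fin 2 → Fin 5 → ℝ × ℝ → ℝ :=
  ![![quad (78233 / 1000000) (-133847 / 1000000) (-143133 / 1000000) (151569 / 1000000) (29933 / 1000000) (64899 / 1000000),
      quad (-14499 / 200000) (389461 / 500000) (71167 / 100000) (592359 / 1000000) (-1071561 / 1000000) (-152821 / 250000),
      quad (64441 / 500000) (-165519 / 250000) (-59523 / 250000) (-308783 / 500000) (21911 / 62500) (198251 / 1000000),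
      quad (577 / 100000) (27449 / 500000) (-668039 / 1000000) (-245659 / 500000) (616563 / 1000000) (91667 / 125000),
      quad 0 0 0 0 0 0],
    ![quad (-36991 / 250000) (-275161 / 500000) (-40703 / 1000000) (-42249 / 125000) (206189 / 500000) (36739 / 500000),
      quad (36209 / 1000000) (21819 / 100000) (42963 / 500000) (-1929007 / 1000000) (-289183 / 500000) (-42957 / 250000),
      quad (13833 / 100000) (-567 / 250000) (-35767 / 1000000) (1839987 / 1000000) (-7021 / 250000) (-68799 / 1000000),
      quad (-50009 / 250000) (-95009 / 250000) (-262003 / 1000000) (192583 / 500000) (20793 / 125000) (333463 / 1000000),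
      quad 0 0 0 0 0 0]]

lemma contDiff_vec {n : WithTop ℕ∞} :
    ContDiff ℝ n vecG ∧ (∀ m, ContDiff ℝ n (vecM m)) ∧ ∀ e j, ContDiff ℝ n (vecC e j) := by
  refine ⟨contDiff_quad .., fun m => ?_, fun e j => ?_⟩
  · fin_cases m <;> exact contDiff_quad ..
  · fin_cases e <;> fin_cases j <;> exact contDiff_quad ..

end

end Vale.Agent.P098.Cert
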