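import Vale.Agent.P098.Cert.Scale

/-!
P098, the certificate class on the free boundary: two scalar inequalities on the unit circle give
the regularised boundary inequality with slack tending to zero.
-/

open Matrix

namespace Vale.Agent.P098.Cert

open Reduce

noncomputable section

/-- The boundary scalar of the zeroth order fields. -/
def edgeLow (C : Fin 2 → Fin 5 → Jet) (ν : ℝ) : ℝ :=
  (C 0 0).1 + (C 0 1).1 * ν + (C 0 2).1 * ν ^ 2 + (C 0 3).1 * ν ^ 3 + (C 0 4).1 * ν ^ 4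

/-- The cubic and quartic combinations on the boundary, at the double node. -/
def edgeX (ν r : ℝ) : Fin 2 → ℝ :=
  let P : ℕ → ℝ := fun k => ν ^ k + momPow (-ν / 3) r (√6)⁻¹ k 0
  let Q : ℝ := 4 / 3 * ν ^ 2 + r ^ 2
  ![ν * P 2 - P 3 + ν * Q, ν * P 3 - P 4 + ν ^ 2 * Q]

/-- The boundary scalar of the second order. -/
def edgeHigh (G : Jet) (M : Fin 2 → Jet) (C : Fin 2 → Fin 5 → Jet) (ν r : ℝ) : ℝ :=
  G.1 * ν + (M 0).1 * edgeX ν r 0 + (M 1).1 * edgeX ν r 1 +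
    ((C 1 0).1 + (C 1 1).1 * ν + (C 1 2).1 * ν ^ 2 + (C 1 3).1 * ν ^ 3 + (C 1 4).1 * ν ^ 4)

/-- The boundary inequalities to be checked, at `(s, P) = (0, 1)`. -/
structure EdgeIneq (G : Jet) (M : Fin 2 → Jet) (C : Fin 2 → Fin 5 → Jet) (t : ℝ) : Prop where
  low : ∀ ν r : ℝ, ν ≤ 0 → 4 / 3 * ν ^ 2 + r ^ 2 = 1 → edgeLow C ν ≤ 0
  high : ∀ ν r : ℝ, ν ≤ 0 → 4 / 3 * ν ^ 2 + r ^ 2 = 1 → edgeHigh G M C ν r + t ≤ 0

lemma edgeX_scale (θ ν r : ℝ) :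
    edgeX (θ * ν) (θ * r) 0 = θ ^ 3 * edgeX ν r 0 ∧ edgeX (θ * ν) (θ * r) 1 = θ ^ 4 * edgeX ν r 1 := by
  constructor <;> simp [edgeX, momPow, mom] <;> ring

lemma edgeForm_scale {G : Jet} {M : Fin 2 → Jet} {C : Fin 2 → Fin 5 → Jet} {ρ : ℝ} (hρ : ρ ≠ 0)
    (ν r : ℝ) :
    edgeForm (coefPhi ρ G).1 (fun m => (coefA ρ M m).1) (fun j => (coefB ρ C j).1)
        (4 / 3 * (ρ * ν) ^ 2 + (ρ * r) ^ 2) (ρ * ν) (ρ * r) (√6)⁻¹ =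
      ρ * edgeLow C ν + ρ ^ 2 * edgeHigh G M C ν r := by
  simp only [edgeForm, edgeLow, edgeHigh, edgeX, coefPhi, coefA, coefB, powCoef, Prod.fst_add,
    Matrix.cons_val_zero, Matrix.cons_val_one, momPow, mom,
    Fin.val_zero, Fin.val_one, Fin.val_two, show ((3 : Fin 5) : ℕ) = 3 from rfl,
    show ((4 : Fin 5) : ℕ) = 4 from rfl]
  norm_num [_root_.zpow_neg, zpow_one, zpow_ofNat]
  field_simp
  ring

lemma one_sub_pow_mul_le {θ x K : ℝ} (h0 : 0 ≤ θ) (h1 : θ ≤ 1) (hx : |x| ≤ K) (k : ℕ) :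
    |θ ^ k * x - x| ≤ k * (1 - θ) * K := by
  have hk : 1 - θ ^ k ≤ k * (1 - θ) := by
    induction k with
    | zero => simp
    | succ k ih =>
      rw [pow_succ]
      push_cast
      nlinarith [mul_le_mul_of_nonneg_left ih h0, mul_nonneg (mul_nonneg (Nat.cast_nonneg (α := ℝ) k)
        (sub_nonneg.2 h1)) (sub_nonneg.2 h1)]
  have h2 : θ ^ k ≤ 1 := pow_le_one₀ h0 h1
  rw [show θ ^ k * x - x = -((1 - θ ^ k) * x) by ring, abs_neg, abs_mul,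
    abs_of_nonneg (sub_nonneg.2 h2)]
  exact mul_le_mul hk hx (abs_nonneg _) (mul_nonneg (Nat.cast_nonneg k) (sub_nonneg.2 h1))

lemma abs_coef_pow_le {ν : ℝ} (hν : |ν| ≤ 1) (c : ℝ) (j : ℕ) : |c * ν ^ j| ≤ |c| := by
  rw [abs_mul, abs_pow]
  exact mul_le_of_le_one_right (abs_nonneg c) (pow_le_one₀ (abs_nonneg _) hν)

lemma poly_gap {θ ν : ℝ} (h0 : 0 ≤ θ) (h1 : θ ≤ 1) (hν : |ν| ≤ 1) (c₁ c₂ c₃ c₄ : ℝ) :
    (c₁ * (θ * ν) + c₂ * (θ * ν) ^ 2 + c₃ * (θ * ν) ^ 3 + c₄ * (θ * ν) ^ 4) -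
        (c₁ * ν + c₂ * ν ^ 2 + c₃ * ν ^ 3 + c₄ * ν ^ 4) ≤
      (1 - θ) * (|c₁| + 2 * |c₂| + 3 * |c₃| + 4 * |c₄|) := by
  have k : ∀ (c : ℝ) (j : ℕ), θ ^ j * (c * ν ^ j) - c * ν ^ j ≤ j * (1 - θ) * |c| := fun c j =>
    (le_abs_self _).trans (one_sub_pow_mul_le h0 h1 (abs_coef_pow_le hν c j) j)
  have := k c₁ 1; have := k c₂ 2; have := k c₃ 3; have := k c₄ 4
  push_cast at *
  linarith

lemma high_gap {θ x₀ x₁ K₀ K₁ : ℝ} (h0 : 0 ≤ θ) (h1 : θ ≤ 1) (m₀ m₁ g ν : ℝ) (hν : |ν| ≤ 1)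
    (h₀ : |x₀| ≤ K₀) (h₁ : |x₁| ≤ K₁) :
    (g * (θ * ν) + m₀ * (θ ^ 3 * x₀) + m₁ * (θ ^ 4 * x₁)) - (g * ν + m₀ * x₀ + m₁ * x₁) ≤
      (1 - θ) * (|g| + 3 * (|m₀| * K₀) + 4 * (|m₁| * K₁)) := by
  have k : ∀ (c x K : ℝ) (j : ℕ), |x| ≤ K → θ ^ j * (c * x) - c * x ≤ j * (1 - θ) * (|c| * K) :=
    fun c x K j hx => (le_abs_self _).trans (one_sub_pow_mul_le h0 h1
      (by rw [abs_mul]; exact mul_le_mul_of_nonneg_left hx (abs_nonneg c)) j)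
  have := k g ν 1 1 hν; have := k m₀ x₀ K₀ 3 h₀; have := k m₁ x₁ K₁ 4 h₁
  push_cast at *
  linarith

/-- The regularised boundary scalar is at most a slack tending to zero. -/
theorem edge_bound {G : Jet} {M : Fin 2 → Jet} {C : Fin 2 → Fin 5 → Jet} {t : ℝ} (ht : 0 < t)
    (h : EdgeIneq G M C t) : ∃ L : ℝ, ∀ ε Q ν r : ℝ, 0 < ε → 0 ≤ Q → ν ≤ 0 →
      4 / 3 * ν ^ 2 + r ^ 2 = Q →
      edgeForm (coefPhi (√(Q + ε ^ 2)) G).1 (fun m => (coefA (√(Q + ε ^ 2)) M m).1)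
        (fun j => (coefB (√(Q + ε ^ 2)) C j).1) Q ν r (√6)⁻¹ ≤ L * ε + L ^ 2 * ε ^ 2 / (4 * t) := by
  have hc : ∀ m, Continuous fun z : ℝ × ℝ => edgeX z.1 z.2 m := fun m => by
    fin_cases m <;> simp only [edgeX, momPow, mom] <;> norm_num <;> fun_prop
  have hb : ∀ m, ∃ K, ∀ z ∈ Set.Icc (-1 : ℝ) 1 ×ˢ Set.Icc (-1 : ℝ) 1, ‖edgeX z.1 z.2 m‖ ≤ K :=
    fun m => (isCompact_Icc.prod isCompact_Icc).exists_bound_of_continuousOn (hc m).continuousOn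
  obtain ⟨K₀, hK₀⟩ := hb 0
  obtain ⟨K₁, hK₁⟩ := hb 1
  set La := |(C 0 1).1| + 2 * |(C 0 2).1| + 3 * |(C 0 3).1| + 4 * |(C 0 4).1|
  set Lb := |G.1| + 3 * (|(M 0).1| * K₀) + 4 * (|(M 1).1| * K₁) +
    (|(C 1 1).1| + 2 * |(C 1 2).1| + 3 * |(C 1 3).1| + 4 * |(C 1 4).1|)
  refine ⟨max La Lb, fun ε Q ν r hε hQ0 hν hQ => ?_⟩
  set ρ := √(Q + ε ^ 2)
  have hρ : 0 < ρ := Real.sqrt_pos.2 (by positivity)
  set θ := √Q / ρ
  have hθ0 : 0 ≤ θ := by positivity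
  have hle : √Q ≤ ρ := Real.sqrt_le_sqrt (by nlinarith)
  have hθ1 : θ ≤ 1 := (div_le_one hρ).2 hle
  have hgap : (1 - θ) * ρ ≤ ε := by
    rw [sub_mul, one_mul, div_mul_cancel₀ _ hρ.ne', sub_le_iff_le_add']
    refine (Real.sqrt_le_left (by positivity)).2 ?_
    nlinarith [Real.sq_sqrt hQ0, Real.sqrt_nonneg Q]
  obtain ⟨ν₁, r₁, hν₁, hu, eν, er⟩ : ∃ ν₁ r₁ : ℝ, ν₁ ≤ 0 ∧ 4 / 3 * ν₁ ^ 2 + r₁ ^ 2 = 1 ∧
      ν = ρ * (θ * ν₁) ∧ r = ρ * (θ * r₁) := by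
    rcases eq_or_ne Q 0 with h0 | h0
    · have e1 : ν = 0 := by
        have : ν ^ 2 ≤ 0 := by nlinarith [sq_nonneg r]
        exact (pow_eq_zero_iff two_ne_zero).1 (le_antisymm this (sq_nonneg ν))
      have e2 : r = 0 := (pow_eq_zero_iff two_ne_zero).1 (by rw [e1] at hQ; linarith)
      exact ⟨0, 1, le_rfl, by norm_num, by simp [e1], by simp [θ, h0, e2]⟩
    · have hs : √Q ≠ 0 := fun h => h0 ((Real.sqrt_eq_zero hQ0).1 h)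
      refine ⟨ν / √Q, r / √Q, div_nonpos_of_nonpos_of_nonneg hν (Real.sqrt_nonneg _), ?_, ?_, ?_⟩
      · rw [div_pow, div_pow, Real.sq_sqrt hQ0]; field_simp; linarith
      all_goals simp only [θ]; field_simp
  have hν1 : |ν₁| ≤ 1 := by
    rw [abs_le_one_iff_mul_self_le_one]; nlinarith [sq_nonneg r₁]
  have hr1 : |r₁| ≤ 1 := by
    rw [abs_le_one_iff_mul_self_le_one]; nlinarith [sq_nonneg ν₁]
  rw [← hQ, eν, er, edgeForm_scale hρ.ne']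
  obtain ⟨x₀, x₁⟩ := edgeX_scale θ ν₁ r₁
  have hz : (ν₁, r₁) ∈ Set.Icc (-1 : ℝ) 1 ×ˢ Set.Icc (-1 : ℝ) 1 :=
    ⟨abs_le.1 hν1, abs_le.1 hr1⟩
  have gl := poly_gap hθ0 hθ1 hν1 (C 0 1).1 (C 0 2).1 (C 0 3).1 (C 0 4).1
  have gh := poly_gap hθ0 hθ1 hν1 (C 1 1).1 (C 1 2).1 (C 1 3).1 (C 1 4).1
  have gx := high_gap hθ0 hθ1 (M 0).1 (M 1).1 G.1 ν₁ hν1 (hK₀ _ hz) (hK₁ _ hz)
  have hl : edgeLow C (θ * ν₁) ≤ max La Lb * (1 - θ) := by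
    have e := h.low ν₁ r₁ hν₁ hu
    have k := mul_le_mul_of_nonneg_right (le_max_left La Lb) (sub_nonneg.2 hθ1)
    simp only [edgeLow] at e ⊢
    linarith only [e, k, gl]
  have hh : edgeHigh G M C (θ * ν₁) (θ * r₁) ≤ -t + max La Lb * (1 - θ) := by
    have e := h.high ν₁ r₁ hν₁ hu
    have k := mul_le_mul_of_nonneg_right (le_max_right La Lb) (sub_nonneg.2 hθ1)
    simp only [edgeHigh, x₀, x₁] at e ⊢
    linarith only [e, k, gh, gx]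
  have hL : 0 ≤ max La Lb := le_max_of_le_left (by positivity)
  have k1 := mul_le_mul_of_nonneg_left hl hρ.le
  have k2 := mul_le_mul_of_nonneg_left hh (sq_nonneg ρ)
  have k3 := mul_le_mul_of_nonneg_left hgap hL
  have k4 := mul_le_mul_of_nonneg_left k3 hρ.le
  have k5 : max La Lb * ε * ρ - t * ρ ^ 2 ≤ max La Lb ^ 2 * ε ^ 2 / (4 * t) := by
    rw [le_div_iff₀ (by positivity)]
    linarith only [sq_nonneg (2 * t * ρ - max La Lb * ε)]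
  linarith only [k1, k2, k3, k4, k5]

end

end Vale.Agent.P098.Cert
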