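import Vale.Agent.P098.Cert.Edge

/-!
P098, the boundary inequalities of the class from polynomial inequalities in one variable: the odd
part in `r` is majorised by the inequality of the means around a value `w` of `|r| / √6`.
-/

namespace Vale.Agent.P098.Cert

open Reduce

noncomputable section

/-- The part of `edgeHigh` even in `r`, with `r² = 1 - 4ν²/3`. -/
def edgeEven (G : Jet) (M : Fin 2 → Jet) (C : Fin 2 → Fin 5 → Jet) (ν : ℝ) : ℝ :=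
  let R := 1 - 4 / 3 * ν ^ 2
  G.1 * ν + (M 0).1 * (2 * ν - 8 / 9 * ν ^ 3 + ν * R) +
    (M 1).1 * (ν * (8 / 9 * ν ^ 3 - ν * R) - (28 / 27 * ν ^ 4 + 2 / 3 * ν ^ 2 * R + R ^ 2 / 2) + ν ^ 2) +
    ((C 1 0).1 + (C 1 1).1 * ν + (C 1 2).1 * ν ^ 2 + (C 1 3).1 * ν ^ 3 + (C 1 4).1 * ν ^ 4)

/-- The factor of `r / √6` in the odd part. -/
def edgeOdd (M : Fin 2 → Jet) (ν : ℝ) : ℝ :=
  (1 - 4 / 3 * ν ^ 2) * (7 / 3 * ν * (M 1).1 - (M 0).1)

lemma edgeHigh_eq (G : Jet) (M : Fin 2 → Jet) (C : Fin 2 → Fin 5 → Jet) {ν r : ℝ}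
    (h : 4 / 3 * ν ^ 2 + r ^ 2 = 1) :
    edgeHigh G M C ν r = edgeEven G M C ν + r * (√6)⁻¹ * edgeOdd M ν := by
  have hR : 1 - 4 / 3 * ν ^ 2 = r ^ 2 := by linarith
  simp only [edgeHigh, edgeEven, edgeOdd, edgeX, momPow, mom, hR, h, Matrix.cons_val_zero,
    Matrix.cons_val_one]
  norm_num
  linear_combination (M 0).1 * ν * h

/-- The boundary inequalities from polynomial ones on `[-13/15, 0]`. -/
theorem edgeIneq_of_poly {G : Jet} {M : Fin 2 → Jet} {C : Fin 2 → Fin 5 → Jet} {t w : ℝ} (hw : 0 < w)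
    (low : ∀ ν : ℝ, -(13 / 15) ≤ ν → ν ≤ 0 → edgeLow C ν ≤ 0)
    (plus : ∀ ν : ℝ, -(13 / 15) ≤ ν → ν ≤ 0 →
      edgeEven G M C ν + t + ((1 - 4 / 3 * ν ^ 2) / (6 * w) + w) / 2 * edgeOdd M ν ≤ 0)
    (minus : ∀ ν : ℝ, -(13 / 15) ≤ ν → ν ≤ 0 →
      edgeEven G M C ν + t - ((1 - 4 / 3 * ν ^ 2) / (6 * w) + w) / 2 * edgeOdd M ν ≤ 0) :
    EdgeIneq G M C t := by
  have dom : ∀ ν r : ℝ, 4 / 3 * ν ^ 2 + r ^ 2 = 1 → -(13 / 15) ≤ ν := fun ν r h => by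
    by_contra hc
    rw [not_le] at hc
    nlinarith [sq_nonneg r]
  refine ⟨fun ν r hν h => low ν (dom ν r h) hν, fun ν r hν h => ?_⟩
  rw [edgeHigh_eq G M C h]
  have hm : |r * (√6)⁻¹| ≤ ((1 - 4 / 3 * ν ^ 2) / (6 * w) + w) / 2 := by
    have e : (r * (√6)⁻¹) ^ 2 = (1 - 4 / 3 * ν ^ 2) / 6 := by
      rw [mul_pow, inv_pow, Real.sq_sqrt (by norm_num)]; linarith
    rw [div_add' _ _ _ (by positivity), le_div_iff₀ (by norm_num : (0 : ℝ) < 2), le_div_iff₀ (by positivity)]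
    nlinarith [sq_nonneg (|r * (√6)⁻¹| - w), sq_abs (r * (√6)⁻¹)]
  obtain ⟨ha, hb⟩ := abs_le.1 hm
  rcases le_total 0 (edgeOdd M ν) with hD | hD
  · linarith [plus ν (dom ν r h) hν, mul_le_mul_of_nonneg_right hb hD]
  · linarith [minus ν (dom ν r h) hν, mul_le_mul_of_nonpos_right ha hD]

end

end Vale.Agent.P098.Cert
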