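import Vale.Agent.P098.Cert.Subst

/-!
P098: homogeneous versions of the substituted forms.  They have degree `4` in `(D, μ, a)`, so on
a chart `μ = N / D` they are polynomials, and they agree with `D ^ 4` times the forms of
`Cert.Subst`.
-/

namespace Vale.Agent.P098.Cert

noncomputable section

/-- `redOf`, homogenised of degree `4` in `(D, μ, a)`. -/
def redHom (g D : ℝ) (M : Fin 2 → Jet) (C : Fin 2 → Fin 5 → Jet)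
    (μ s σ o R U₁ U₂ W₁ W₂ P₂ P₃ P₄ : ℝ) : ℝ :=
  let d : ℝ → Jet → ℝ := fun e X => e * X.1 * U₁ + (D * X.2.1 * o + 2 * μ * X.2.2 * R)
  let b : Fin 5 → ℝ := fun j => (C 0 j).1 * o + (C 1 j).1 * R
  let db : Fin 5 → ℝ := fun j =>
    o * d (1 - (j : ℕ)) (C 0 j) + R * d (2 - (j : ℕ)) (C 1 j)
  σ * (D ^ 2 * (d (-1) (M 0) * U₁ + (M 0).1 * W₁ * D ^ 2) +
      D * (d (-2) (M 1) * U₂ + (M 1).1 * W₂ * D ^ 2) +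
      (D ^ 3 * db 0 + D ^ 2 * μ * db 1 + (D * μ ^ 2 * db 2 + D ^ 3 * b 2 * U₁) +
        (μ ^ 3 * db 3 + D ^ 2 * b 3 * (U₂ + μ * U₁)))) +
    (o ^ 2 * (9 / 4 * g * D ^ 4 + 4 * (M 0).1 * P₂ * D ^ 2 + 4 * (M 1).1 * P₃ * D) -
        4 * s * b 0 * o * D ^ 4 + b 1 * R * P₂ * D ^ 2 +
      b 2 * (R * P₃ * D - s * o * P₂ * D ^ 2) + b 3 * (R * P₄ - s * o * P₃ * D))

/-- `elimOf`, homogenised. -/
def elimHom (κ t D σ o U₁ W₁ : ℝ) : ℝ :=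
  σ * κ * U₁ ^ 2 * D ^ 2 + t * (σ * W₁ + o ^ 2) * D ^ 4

/-- `nodeRed`, homogenised. -/
def nodeHom (g κ t : ℝ) (M : Fin 2 → Jet) (C : Fin 2 → Fin 5 → Jet)
    (D μ a s σ w₀ w₁ o R : ℝ) : ℝ :=
  let m := -μ / 3
  let N₂₀ := 3 * m ^ 2 + 6 * a ^ 2
  let N₂₁ := 12 * a * m + 6 * a ^ 2
  let N₃₀ := m * N₂₀ + a * N₂₁
  let N₂₂ := m * (6 * m + 6 * a) + a * (6 * m + 18 * a)
  let N₄₀ := m * N₃₀ + a * (m * N₂₁ + a * N₂₂)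
  let L₀ := 3 * w₀
  let U₁ := 3 * m * w₀ + 6 * a * w₁ - μ * L₀
  let U₂ := N₂₀ * w₀ + N₂₁ * w₁ - μ ^ 2 * L₀
  let S₀ := 3 * w₀ ^ 2 + 6 * w₁ ^ 2
  let S₁ := 3 * m * w₀ ^ 2 + 12 * a * w₀ * w₁ + (6 * m + 6 * a) * w₁ ^ 2
  let W₁ := L₀ ^ 2 + 3 * S₀
  redHom g D M C μ s σ o R U₁ U₂ W₁ (2 * μ * L₀ ^ 2 + (4 * S₁ + 2 * μ * S₀))
      (μ ^ 2 + N₂₀) (μ ^ 3 + N₃₀) (μ ^ 4 + N₄₀) +
    elimHom κ t D σ o U₁ W₁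

/-- `midRed`, homogenised. -/
def midHom (g κ t : ℝ) (M : Fin 2 → Jet) (C : Fin 2 → Fin 5 → Jet)
    (D μ r s σ w₀ w₁ w₂ o R : ℝ) : ℝ :=
  let m := -μ / 3
  let N₂₀ := 3 * m ^ 2 + r ^ 2
  let N₃₀ := 3 * m ^ 3 + 3 * m * r ^ 2
  let N₄₀ := 3 * m ^ 4 + 6 * m ^ 2 * r ^ 2 + r ^ 4 / 2
  let L₀ := 3 * w₀ + w₂
  let U₁ := 3 * m * w₀ + r * w₁ + m * w₂ - μ * L₀
  let U₂ := N₂₀ * w₀ + 2 * m * r * w₁ + (m ^ 2 + r ^ 2 / 2) * w₂ - μ ^ 2 * L₀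
  let S₀ := 3 * w₀ ^ 2 + w₁ ^ 2 + 2 * w₀ * w₂ + w₂ ^ 2 / 2
  let S₁ := 3 * m * w₀ ^ 2 + 2 * r * w₀ * w₁ + m * (w₁ ^ 2 + 2 * w₀ * w₂) + r * w₁ * w₂ +
    m * w₂ ^ 2 / 2
  let W₁ := L₀ ^ 2 + 3 * S₀
  redHom g D M C μ s σ o R U₁ U₂ W₁ (2 * μ * L₀ ^ 2 + (4 * S₁ + 2 * μ * S₀))
      (μ ^ 2 + N₂₀) (μ ^ 3 + N₃₀) (μ ^ 4 + N₄₀) +
    σ * (r ^ 2 / 6 * w₂ * (D ^ 2 * (M 0).1 * w₂ + 2 * D * (M 1).1 * (r * w₁ + 2 * m * w₂))) +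
    elimHom κ t D σ o U₁ W₁

lemma nodeHom_scale (g κ t : ℝ) (M : Fin 2 → Jet) (C : Fin 2 → Fin 5 → Jet)
    (D μ a s σ w₀ w₁ o R : ℝ) :
    nodeHom g κ t M C D (D * μ) (D * a) s σ w₀ w₁ o R =
      D ^ 4 * nodeRed g κ t M C μ a s σ w₀ w₁ o R := by
  simp only [nodeHom, nodeRed, redHom, redOf, elimHom, elimOf, Fin.val_zero, Fin.val_one,
    Fin.val_two, show ((3 : Fin 5) : ℕ) = 3 from rfl]
  ring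

lemma midHom_scale (g κ t : ℝ) (M : Fin 2 → Jet) (C : Fin 2 → Fin 5 → Jet)
    (D μ r s σ w₀ w₁ w₂ o R : ℝ) :
    midHom g κ t M C D (D * μ) (D * r) s σ w₀ w₁ w₂ o R =
      D ^ 4 * midRed g κ t M C μ r s σ w₀ w₁ w₂ o R := by
  simp only [midHom, midRed, redHom, redOf, elimHom, elimOf, Fin.val_zero, Fin.val_one,
    Fin.val_two, show ((3 : Fin 5) : ℕ) = 3 from rfl]
  ring

/-- A quadratic form from its values at the unit vectors and their pairwise sums. -/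
lemma nodeHom_polar (g κ t : ℝ) (M : Fin 2 → Jet) (C : Fin 2 → Fin 5 → Jet)
    (D μ a s σ w₀ w₁ o R : ℝ) :
    let Q := nodeHom g κ t M C D μ a s σ
    Q w₀ w₁ o R = w₀ * w₀ * Q 1 0 0 0 + w₁ * w₁ * Q 0 1 0 0 + o * o * Q 0 0 1 0 +
      R * R * Q 0 0 0 1 + w₀ * w₁ * (Q 1 1 0 0 - Q 1 0 0 0 - Q 0 1 0 0) +
      w₀ * o * (Q 1 0 1 0 - Q 1 0 0 0 - Q 0 0 1 0) +
      w₀ * R * (Q 1 0 0 1 - Q 1 0 0 0 - Q 0 0 0 1) +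
      w₁ * o * (Q 0 1 1 0 - Q 0 1 0 0 - Q 0 0 1 0) +
      w₁ * R * (Q 0 1 0 1 - Q 0 1 0 0 - Q 0 0 0 1) +
      o * R * (Q 0 0 1 1 - Q 0 0 1 0 - Q 0 0 0 1) := by
  simp only [nodeHom, redHom, elimHom, Fin.val_zero, Fin.val_one,
    Fin.val_two, show ((3 : Fin 5) : ℕ) = 3 from rfl]
  ring

/-- A quadratic form from its values at the unit vectors and their pairwise sums. -/
lemma midHom_polar (g κ t : ℝ) (M : Fin 2 → Jet) (C : Fin 2 → Fin 5 → Jet)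
    (D μ r s σ w₀ w₁ w₂ o R : ℝ) :
    let Q := midHom g κ t M C D μ r s σ
    Q w₀ w₁ w₂ o R = w₀ * w₀ * Q 1 0 0 0 0 + w₁ * w₁ * Q 0 1 0 0 0 + w₂ * w₂ * Q 0 0 1 0 0 +
      o * o * Q 0 0 0 1 0 + R * R * Q 0 0 0 0 1 +
      w₀ * w₁ * (Q 1 1 0 0 0 - Q 1 0 0 0 0 - Q 0 1 0 0 0) +
      w₀ * w₂ * (Q 1 0 1 0 0 - Q 1 0 0 0 0 - Q 0 0 1 0 0) +
      w₀ * o * (Q 1 0 0 1 0 - Q 1 0 0 0 0 - Q 0 0 0 1 0) +
      w₀ * R * (Q 1 0 0 0 1 - Q 1 0 0 0 0 - Q 0 0 0 0 1) +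
      w₁ * w₂ * (Q 0 1 1 0 0 - Q 0 1 0 0 0 - Q 0 0 1 0 0) +
      w₁ * o * (Q 0 1 0 1 0 - Q 0 1 0 0 0 - Q 0 0 0 1 0) +
      w₁ * R * (Q 0 1 0 0 1 - Q 0 1 0 0 0 - Q 0 0 0 0 1) +
      w₂ * o * (Q 0 0 1 1 0 - Q 0 0 1 0 0 - Q 0 0 0 1 0) +
      w₂ * R * (Q 0 0 1 0 1 - Q 0 0 1 0 0 - Q 0 0 0 0 1) +
      o * R * (Q 0 0 0 1 1 - Q 0 0 0 1 0 - Q 0 0 0 0 1) := by
  simp only [midHom, redHom, elimHom, Fin.val_zero, Fin.val_one,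
    Fin.val_two, show ((3 : Fin 5) : ℕ) = 3 from rfl]
  ring

/-- The numerator of `chartMu`. -/
def chartN (τ : ℝ) : ℝ := chartDen τ / 2 + (12 * chartP τ - 4 * chartW τ) * chartW τ

/-- The numerator of `chartA`. -/
def chartB (τ : ℝ) : ℝ := -chartDen τ / 3 + (12 * chartP τ - 4 * chartW τ) * chartP τ

lemma chart_num (τ : ℝ) :
    chartN τ = chartDen τ * chartMu τ ∧ chartB τ = chartDen τ * chartA τ := by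
  have h := (chartDen_pos τ).ne'
  constructor
  · rw [chartMu, chartN, mul_div_cancel₀ _ h]
  · rw [chartA, chartB, mul_div_cancel₀ _ h]

lemma mid_num (τ : ℝ) :
    6 * midK τ = midDen τ * midMu τ ∧ 3 - 4 * midK τ ^ 2 = midDen τ * midR τ := by
  have h := (midDen_pos τ).ne'
  constructor
  · rw [midMu, mul_div_cancel₀ _ h]
  · rw [midR, mul_div_cancel₀ _ h]

end

end Vale.Agent.P098.Cert
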