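import Vale.Agent.P098.Cert.Top
import Vale.Agent.P098.Cert.Edge
import Vale.Agent.P098.Reduce.Main

/-!
P098, the certificate class: the regularisation `ρ ↦ √(Q + ε²)` (extended smoothly to negative `Q`)
and flatness of stable smooth cones in dimension five from the inequalities of the class at `ρ = 1`.
-/

open Filter Matrix
open scoped Topology ContDiff RealInnerProductSpace

namespace Vale.Agent.P098.Cert

open Reduce

noncomputable section

/-- A positive smooth function equal to `Q + ε²` for `Q ≥ 0`. -/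
def regSq (ε Q : ℝ) : ℝ :=
  Q + ε ^ 2 + Real.exp (2 / ε ^ 2) * expNegInvGlue (-Q) * (1 + Q ^ 2)

/-- The regularised `ρ`. -/
def regRho (ε Q : ℝ) : ℝ := √(regSq ε Q)

lemma regSq_pos {ε : ℝ} (hε : ε ≠ 0) (Q : ℝ) : 0 < regSq ε Q := by
  have he : 0 < ε ^ 2 := by positivity
  have hg : 0 ≤ Real.exp (2 / ε ^ 2) * expNegInvGlue (-Q) * (1 + Q ^ 2) :=
    mul_nonneg (mul_nonneg (Real.exp_pos _).le (expNegInvGlue.nonneg _)) (by positivity)
  rw [regSq]
  rcases le_or_gt (-(ε ^ 2 / 2)) Q with h | h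
  · linarith
  · have hx : 0 < -Q := by linarith
    have hge : 1 ≤ Real.exp (2 / ε ^ 2) * expNegInvGlue (-Q) := by
      rw [expNegInvGlue, if_neg (not_le.2 hx), ← Real.exp_add, Real.one_le_exp_iff, le_add_neg_iff_add_le,
        zero_add, inv_eq_one_div, div_le_div_iff₀ hx he]
      linarith
    have := mul_le_mul_of_nonneg_right hge (show (0 : ℝ) ≤ 1 + Q ^ 2 by positivity)
    nlinarith [sq_nonneg (Q + 1 / 2)]

lemma regSq_eq {ε Q : ℝ} (hQ : 0 ≤ Q) : regSq ε Q = Q + ε ^ 2 := by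
  simp [regSq, expNegInvGlue.zero_of_nonpos (neg_nonpos.2 hQ)]

lemma regRho_eq {ε Q : ℝ} (hQ : 0 ≤ Q) : regRho ε Q = √(Q + ε ^ 2) := by
  rw [regRho, regSq_eq hQ]

lemma regRho_pos {ε : ℝ} (hε : ε ≠ 0) (Q : ℝ) : 0 < regRho ε Q := Real.sqrt_pos.2 (regSq_pos hε Q)

lemma contDiff_regRho {ε : ℝ} (hε : ε ≠ 0) : ContDiff ℝ 2 (regRho ε) := by
  refine ContDiff.sqrt ?_ fun Q => (regSq_pos hε Q).ne'
  exact (contDiff_id.add contDiff_const).add ((contDiff_const.mul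
    ((expNegInvGlue.contDiff (n := 2)).comp contDiff_neg)).mul
      (contDiff_const.add (contDiff_id.pow 2)))

lemma hasDerivAt_regRho {ε Q : ℝ} (hε : ε ≠ 0) (hQ : 0 ≤ Q) :
    HasDerivAt (regRho ε) (1 / (2 * regRho ε Q)) Q := by
  have hd : DifferentiableAt ℝ
      (fun x => Real.exp (2 / ε ^ 2) * expNegInvGlue (-x) * (1 + x ^ 2)) Q :=
    ((differentiableAt_const _).mul
      (((expNegInvGlue.contDiff (n := 1)).differentiable (by norm_num) _).comp Q
        differentiable_neg.differentiableAt)).mul (by fun_prop)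
  have hz : HasDerivWithinAt (fun x => Real.exp (2 / ε ^ 2) * expNegInvGlue (-x) * (1 + x ^ 2)) 0
      (Set.Ici 0) Q :=
    (hasDerivWithinAt_const Q (Set.Ici 0) (0 : ℝ)).congr
      (fun x hx => by simp [expNegInvGlue.zero_of_nonpos (neg_nonpos.2 (Set.mem_Ici.1 hx))])
      (by simp [expNegInvGlue.zero_of_nonpos (neg_nonpos.2 hQ)])
  have h0 := hd.hasDerivAt
  rw [(uniqueDiffOn_Ici (0 : ℝ) Q hQ).eq_deriv _ h0.hasDerivWithinAt hz] at h0
  have h1 : HasDerivAt (regSq ε) 1 Q := by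
    have := ((hasDerivAt_id Q).add_const (ε ^ 2)).add h0
    rwa [add_zero] at this
  exact h1.sqrt (regSq_pos hε Q).ne'

/-- `(value, ∂ₛ, ∂_P)`. -/
def jetOf (g : ℝ × ℝ → ℝ) (p : ℝ × ℝ) : Jet := (g p, fderiv ℝ g p (1, 0), fderiv ℝ g p (0, 1))

/-- `ρ_ε ^ e g(s, P)`. -/
def regFun (ε : ℝ) (e : ℤ) (g : ℝ × ℝ → ℝ) (z : ℝ × ℝ × ℝ) : ℝ := regRho ε z.1 ^ e * g z.2

lemma contDiff_regFun {ε : ℝ} (hε : ε ≠ 0) (e : ℤ) {g : ℝ × ℝ → ℝ} {n : WithTop ℕ∞}
    (hn : n ≤ 2) (hg : ContDiff ℝ 2 g) : ContDiff ℝ n (regFun ε e g) := by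
  have h : ContDiff ℝ 2 fun Q => regRho ε Q ^ e := by
    obtain ⟨k, rfl | rfl⟩ := e.eq_nat_or_neg
    · simpa using (contDiff_regRho hε).pow k
    · simpa [_root_.zpow_neg, Pi.inv_def] using
        ((contDiff_regRho hε).pow k).inv fun Q => pow_ne_zero k (regRho_pos hε Q).ne'
  exact ((h.comp contDiff_fst).mul (hg.comp contDiff_snd)).of_le hn

lemma coefOf_regFun {ε : ℝ} (hε : ε ≠ 0) (e : ℤ) {g : ℝ × ℝ → ℝ} (hg : ContDiff ℝ 2 g)
    {z : ℝ × ℝ × ℝ} (hz : 0 ≤ z.1) :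
    coefOf (regFun ε e g) z = powCoef e (regRho ε z.1) (jetOf g z.2) := by
  have hρ := regRho_pos hε z.1
  have h1 : HasDerivAt (fun Q => regRho ε Q ^ e) ((e : ℝ) / 2 * regRho ε z.1 ^ (e - 2)) z.1 := by
    have h := (hasDerivAt_zpow e (regRho ε z.1) (Or.inl hρ.ne')).comp z.1 (hasDerivAt_regRho hε hz)
    refine h.congr_deriv ?_
    rw [zpow_sub_one₀ hρ.ne', zpow_sub₀ hρ.ne', zpow_two]
    field_simp
  have h2 : HasFDerivAt (regFun ε e g) _ z :=
    (h1.comp_hasFDerivAt z hasFDerivAt_fst).mul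
      (((hg.differentiable (by norm_num)) z.2).hasFDerivAt.comp z hasFDerivAt_snd)
  simp only [coefOf, powCoef, h2.fderiv, regFun, jetOf]
  simp [mul_comm, Prod.mk_zero_zero]

lemma coefOf_add {X Y : ℝ × ℝ × ℝ → ℝ} {z : ℝ × ℝ × ℝ} (hX : DifferentiableAt ℝ X z)
    (hY : DifferentiableAt ℝ Y z) : coefOf (fun w => X w + Y w) z = coefOf X z + coefOf Y z := by
  simp [coefOf, fderiv_fun_add hX hY]

variable (G : ℝ × ℝ → ℝ) (M : Fin 2 → ℝ × ℝ → ℝ) (C : Fin 2 → Fin 5 → ℝ × ℝ → ℝ)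

/-- The regularised test coefficient. -/
def regPhi (ε : ℝ) : ℝ × ℝ × ℝ → ℝ := regFun ε 1 G

/-- The regularised coefficients of the fields `T : b^m`. -/
def regA (ε : ℝ) (m : Fin 2) : ℝ × ℝ × ℝ → ℝ := regFun ε (-1 - (m : ℕ)) (M m)

/-- The regularised coefficients of the fields `b^j p`. -/
def regB (ε : ℝ) (j : Fin 5) : ℝ × ℝ × ℝ → ℝ := fun z =>
  regFun ε (1 - (j : ℕ)) (C 0 j) z + regFun ε (2 - (j : ℕ)) (C 1 j) z

/-- The jets at a point. -/
def jetG (p : ℝ × ℝ) : Jet := jetOf G p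

/-- The jets at a point. -/
def jetM (p : ℝ × ℝ) : Fin 2 → Jet := fun m => jetOf (M m) p

/-- The jets at a point. -/
def jetC (p : ℝ × ℝ) : Fin 2 → Fin 5 → Jet := fun e j => jetOf (C e j) p

variable {G M C} (hG : ContDiff ℝ 2 G) (hM : ∀ m, ContDiff ℝ 2 (M m))
  (hC : ∀ e j, ContDiff ℝ 2 (C e j))

include hG hM hC in
lemma coefs_eq {ε : ℝ} (hε : ε ≠ 0) {z : ℝ × ℝ × ℝ} (hz : 0 ≤ z.1) :
    coefOf (regPhi G ε) z = coefPhi (regRho ε z.1) (jetG G z.2) ∧
      (fun m => coefOf (regA M ε m) z) = coefA (regRho ε z.1) (jetM M z.2) ∧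
      (fun j => coefOf (regB C ε j) z) = coefB (regRho ε z.1) (jetC C z.2) := by
  refine ⟨coefOf_regFun hε 1 hG hz, funext fun m => coefOf_regFun hε _ (hM m) hz, funext fun j => ?_⟩
  have hd : ∀ e i, DifferentiableAt ℝ (regFun ε e (C i j)) z := fun e i =>
    ((contDiff_regFun hε e le_rfl (hC i j)).differentiable (by norm_num)) z
  rw [show regB C ε j = fun w => regFun ε (1 - (j : ℕ)) (C 0 j) w + regFun ε (2 - (j : ℕ)) (C 1 j) w
    from rfl, coefOf_add (hd _ _) (hd _ _), coefOf_regFun hε _ (hC 0 j) hz,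
    coefOf_regFun hε _ (hC 1 j) hz]
  rfl

lemma classOf_zero (G : Jet) (M : Fin 2 → Jet) (C : Fin 2 → Fin 5 → Jet)
    (μ s q y U₁ U₂ U₃ W₁ W₂ P₂ P₃ P₄ P₅ : ℝ) :
    classOf G M C μ s q 0 0 y U₁ U₂ U₃ W₁ W₂ P₂ P₃ P₄ P₅ = topOf G M y U₁ U₂ W₁ W₂ := by
  simp only [classOf, topOf]; ring

lemma sum_sq_le_weight (L u : Fin 4 → ℝ) (c : Fin 4) :
    ∑ i, u i ^ 2 ≤ weightSum L u 1 c := by
  refine Finset.sum_le_sum fun i _ => ?_
  simp only [hsum]
  split_ifs <;> nlinarith [sq_nonneg (u i)]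

lemma classReal_smul (G : Jet) (M : Fin 2 → Jet) (C : Fin 2 → Fin 5 → Jet) (L u : Fin 4 → ℝ)
    (c : Fin 4) (r s q o R y : ℝ) :
    classReal G M C L c (r • u) s q (r * o) (r * R) (r * y) =
      r ^ 2 * classReal G M C L c u s q o R y := by
  obtain ⟨hU, -, hW1, hW2⟩ := moments_smul 1 r L u c
  simp only [one_smul, one_pow, one_mul] at hU hW1 hW2
  simp only [classReal, hU, hW1, hW2, classOf_smul]

/-- Parameters `(s, q)`, eigenvalues, `R`, and the variables `(u, y, o)`. -/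
abbrev Pt : Type := ((ℝ × ℝ) × (Fin 4 → ℝ) × ℝ) × (Fin 4 → ℝ) × ℝ × ℝ

/-- The class form as a function on the parameter space. -/
def formAt (G : ℝ × ℝ → ℝ) (M : Fin 2 → ℝ × ℝ → ℝ) (C : Fin 2 → Fin 5 → ℝ × ℝ → ℝ) (c : Fin 4)
    (x : Pt) : ℝ :=
  classReal (jetG G (x.1.1.1, x.1.1.1 ^ 2 + x.1.1.2 ^ 2)) (jetM M (x.1.1.1, x.1.1.1 ^ 2 + x.1.1.2 ^ 2))
    (jetC C (x.1.1.1, x.1.1.1 ^ 2 + x.1.1.2 ^ 2)) x.1.2.1 c x.2.1 x.1.1.1 x.1.1.2 x.2.2.2
    (x.1.2.2 * x.2.2.2) x.2.2.1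

/-- The parameters with `R ∈ [a, b]`, and the unit sphere of the variables. -/
def region (D : Set (ℝ × ℝ)) (a b : ℝ) : Set Pt :=
  {x | (x.1.1 ∈ D ∧ (∑ i, x.1.2.1 i = 0 ∧ psum x.1.2.1 2 ≤ 1) ∧ x.1.2.2 ∈ Set.Icc a b) ∧
    (∑ i, x.2.1 i = 0 ∧ (∑ i, x.2.1 i ^ 2) + x.2.2.1 ^ 2 + x.2.2.2 ^ 2 = 1)}

lemma isCompact_region {D : Set (ℝ × ℝ)} (hD : IsCompact D) (a b : ℝ) :
    IsCompact (region D a b) := by
  have hb : IsCompact {v : Fin 4 → ℝ | ∀ i, v i ∈ Set.Icc (-1 : ℝ) 1} :=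
    isCompact_pi_infinite fun _ => isCompact_Icc
  refine IsCompact.of_isClosed_subset ((hD.prod (hb.prod (isCompact_Icc (a := a) (b := b)))).prod
    (hb.prod ((isCompact_Icc (a := (-1 : ℝ)) (b := 1)).prod (isCompact_Icc (a := (-1 : ℝ)) (b := 1)))))
    ?_ ?_
  · simp only [region, psum, Set.ofPred_and, Set.mem_Icc]
    repeat' refine IsClosed.inter ?_ ?_
    all_goals first
      | exact hD.isClosed.preimage (by fun_prop)
      | exact isClosed_eq (by fun_prop) (by fun_prop)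
      | exact isClosed_le (by fun_prop) (by fun_prop)
  · rintro x ⟨⟨hd, ⟨-, hP⟩, hR⟩, -, hn⟩
    have one : ∀ z : ℝ, z ^ 2 ≤ 1 → z ∈ Set.Icc (-1 : ℝ) 1 := fun z hz =>
      abs_le.1 (by rwa [← sq_le_one_iff_abs_le_one])
    have hl : ∀ i, x.1.2.1 i ^ 2 ≤ 1 := fun i =>
      (Finset.single_le_sum (f := fun i => x.1.2.1 i ^ 2) (fun i _ => sq_nonneg _)
        (Finset.mem_univ i)).trans hP
    have hu : ∀ i, x.2.1 i ^ 2 ≤ ∑ i, x.2.1 i ^ 2 := fun i =>
      Finset.single_le_sum (f := fun i => x.2.1 i ^ 2) (fun i _ => sq_nonneg _) (Finset.mem_univ i)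
    have hs : 0 ≤ ∑ i, x.2.1 i ^ 2 := Finset.sum_nonneg fun i _ => sq_nonneg _
    exact ⟨⟨hd, fun i => one _ (hl i), hR⟩, fun i => one _ (by
      linarith [hu i, sq_nonneg x.2.2.1, sq_nonneg x.2.2.2]),
      one _ (by linarith [sq_nonneg x.2.2.2]), one _ (by linarith [sq_nonneg x.2.2.1])⟩

/-- Normalisation of the variables with `o = 1`. -/
lemma exists_unit {D : Set (ℝ × ℝ)} {a b s q R y : ℝ} {L u : Fin 4 → ℝ} (hd : (s, q) ∈ D)
    (hL : ∑ i, L i = 0) (hP : psum L 2 ≤ 1) (hR : R ∈ Set.Icc a b) (hu : ∑ i, u i = 0) :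
    ∃ r : ℝ, 0 < r ∧ (((s, q), L, R), r • u, r * y, r) ∈ region D a b := by
  have hN : 0 < (∑ i, u i ^ 2) + y ^ 2 + 1 := by positivity
  refine ⟨(√((∑ i, u i ^ 2) + y ^ 2 + 1))⁻¹, by positivity, ⟨hd, ⟨hL, hP⟩, hR⟩,
    by simp [← Finset.mul_sum, hu], ?_⟩
  simp only [Pi.smul_apply, smul_eq_mul, mul_pow, ← Finset.mul_sum, inv_pow, Real.sq_sqrt hN.le]
  field_simp

/-- The hypotheses of the class at every point. -/
def ClassAll (G : ℝ × ℝ → ℝ) (M : Fin 2 → ℝ × ℝ → ℝ) (C : Fin 2 → Fin 5 → ℝ × ℝ → ℝ) (t : ℝ) : Prop :=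
  ∀ s q : ℝ, 0 ≤ s → 0 ≤ q → s ^ 2 + q ^ 2 ≤ 1 →
    ClassIneq (jetG G (s, s ^ 2 + q ^ 2)) (jetM M (s, s ^ 2 + q ^ 2)) (jetC C (s, s ^ 2 + q ^ 2)) s q t

/-- The domain of `(s, q)`. -/
def quarter : Set (ℝ × ℝ) :=
  {p | 0 ≤ p.1 ∧ 0 ≤ p.2 ∧ p.1 ^ 2 + p.2 ^ 2 ≤ 1}

lemma isCompact_quarter : IsCompact quarter := by
  refine IsCompact.of_isClosed_subset ((isCompact_Icc (a := (0 : ℝ)) (b := 1)).prod
    (isCompact_Icc (a := (0 : ℝ)) (b := 1))) ?_ fun p hp => ?_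
  · simp only [quarter, Set.ofPred_and]
    exact (isClosed_le continuous_const continuous_fst).inter
      ((isClosed_le continuous_const continuous_snd).inter (isClosed_le (by fun_prop) continuous_const))
  · exact ⟨⟨hp.1, by nlinarith [hp.2.2, sq_nonneg p.2]⟩, hp.2.1, by nlinarith [hp.2.2, sq_nonneg p.1]⟩

include hG hM hC in
lemma continuous_formAt (c : Fin 4) : Continuous (formAt G M C c) := by
  have hj : ∀ {g : ℝ × ℝ → ℝ}, ContDiff ℝ 2 g → Continuous fun x : Pt =>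
      jetOf g (x.1.1.1, x.1.1.1 ^ 2 + x.1.1.2 ^ 2) := fun {g} hg => by
    have h : Continuous (jetOf g) := by
      have hd := hg.continuous_fderiv (by norm_num)
      exact hg.continuous.prodMk ((hd.clm_apply continuous_const).prodMk (hd.clm_apply continuous_const))
    exact h.comp (by fun_prop)
  have h0 := hj hG
  have h1 := fun m => hj (hM m)
  have h2 := fun e j => hj (hC e j)
  have hw : ∀ m, Continuous fun x : Pt => weightSum x.1.2.1 x.2.1 m c := fun m => by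
    have hh : ∀ i k : Fin 4, Continuous fun x : Pt => hsum m (x.1.2.1 i) (x.1.2.1 k) := fun i k =>
      (continuous_hsum m i k).comp (continuous_fst.comp (continuous_snd.comp continuous_fst))
    refine continuous_finsetSum _ fun i _ => ?_
    have := hh c c; have := hh i i; have := hh i c
    split_ifs <;> fun_prop
  have hU : ∀ m, Continuous fun x : Pt => usum x.1.2.1 x.2.1 m := fun m => by unfold usum; fun_prop
  have hP : ∀ m, Continuous fun x : Pt => psum x.1.2.1 m := fun m => by unfold psum; fun_prop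
  have g0 := h0.fst; have g1 := h0.snd.fst; have g2 := h0.snd.snd
  have m0 := fun m => (h1 m).fst; have m1 := fun m => (h1 m).snd.fst
  have m2 := fun m => (h1 m).snd.snd
  have c0 := fun e j => (h2 e j).fst; have c1 := fun e j => (h2 e j).snd.fst
  have c2 := fun e j => (h2 e j).snd.snd
  have d0 := m0 0; have d0' := m0 1; have d1 := m1 0; have d1' := m1 1
  have d2 := m2 0; have d2' := m2 1
  have := hU 1; have := hU 2; have := hU 3; have := hw 1; have := hw 2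
  have := hP 2; have := hP 3; have := hP 4; have := hP 5
  unfold formAt classReal jetG jetM jetC
  simp only [classOf]
  fun_prop

include hG hM hC in
/-- An upper bound for the class form with bounded `R`. -/
lemma classReal_le {t : ℝ} (ht : 0 < t) (h : ClassAll G M C t) (b : ℝ) :
    ∃ K : ℝ, 0 ≤ K ∧ ∀ (c : Fin 4) (s q R y : ℝ) (L u : Fin 4 → ℝ), (s, q) ∈ quarter →
      ∑ i, L i = 0 → psum L 2 ≤ 1 → R ∈ Set.Icc 0 b → ∑ i, u i = 0 →
      classReal (jetG G (s, s ^ 2 + q ^ 2)) (jetM M (s, s ^ 2 + q ^ 2)) (jetC C (s, s ^ 2 + q ^ 2))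
        L c u s q 1 R y ≤ K := by
  have hK : ∀ c, ∃ K, ∀ x ∈ region quarter 0 b, formAt G M C c x ≤ K * x.2.2.2 ^ 2 ∧ 0 ≤ K := by
    intro c
    set S := region quarter 0 b ∩ formAt G M C c ⁻¹' Set.Ici 0
    have hS : IsCompact S := (isCompact_region isCompact_quarter 0 b).inter_right
      (isClosed_Ici.preimage (continuous_formAt hG hM hC c))
    have hpos : ∀ x ∈ S, x.2.2.2 ≠ 0 := by
      rintro x ⟨⟨⟨hd, ⟨hL, hP⟩, -⟩, hu, hn⟩, hx⟩ ho
      have ht' := top_disc (h _ _ hd.1 hd.2.1 hd.2.2) ht hL hP hu c x.2.2.1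
      have hw := sum_sq_le_weight x.1.2.1 x.2.1 c
      rw [Set.mem_preimage, Set.mem_Ici, formAt, ho, mul_zero, classReal, classOf_zero] at hx
      rw [ho] at hn
      nlinarith [mul_le_mul_of_nonneg_left hw ht.le]
    have hf : ContinuousOn (fun x => formAt G M C c x / x.2.2.2 ^ 2) S :=
      (continuous_formAt hG hM hC c).continuousOn.div (by fun_prop) fun x hx =>
        pow_ne_zero 2 (hpos x hx)
    obtain ⟨K, hK⟩ := hS.exists_bound_of_continuousOn hf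
    refine ⟨max K 0, fun x hx => ⟨?_, le_max_right _ _⟩⟩
    rcases le_or_gt 0 (formAt G M C c x) with h0 | h0
    · have ho := hpos x ⟨hx, h0⟩
      have := ((le_abs_self _).trans_eq (Real.norm_eq_abs _).symm).trans (hK x ⟨hx, h0⟩)
      rw [div_le_iff₀ (by positivity)] at this
      exact this.trans (mul_le_mul_of_nonneg_right (le_max_left _ _) (sq_nonneg _))
    · exact h0.le.trans (by positivity)
  choose K hK using hK
  refine ⟨∑ c, |K c|, Finset.sum_nonneg fun c _ => abs_nonneg _,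
    fun c s q R y L u hd hL hP hR hu => ?_⟩
  obtain ⟨r, hr, hx⟩ := exists_unit (y := y) hd hL hP hR hu
  have := (hK c _ hx).1
  simp only [formAt] at this
  have e := classReal_smul (jetG G (s, s ^ 2 + q ^ 2)) (jetM M (s, s ^ 2 + q ^ 2))
    (jetC C (s, s ^ 2 + q ^ 2)) L u c r s q 1 R y
  rw [mul_one] at e
  rw [mul_comm R r, e] at this
  refine le_trans ?_ ((le_abs_self _).trans
    (Finset.single_le_sum (f := fun c => |K c|) (fun c _ => abs_nonneg _) (Finset.mem_univ c)))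
  nlinarith [pow_pos hr 2]

include hG hM hC in
/-- Near the unit sphere of eigenvalues the class form is at most `-t + η`. -/
lemma classReal_near {t : ℝ} (ht : 0 < t) (h : ClassAll G M C t) {s q a b : ℝ} (hd : (s, q) ∈ quarter)
    (ha : 0 < a) {η : ℝ} (hη : 0 < η) :
    ∃ d : ℝ, d < 1 ∧ ∀ (c : Fin 4) (R y : ℝ) (L u : Fin 4 → ℝ), ∑ i, L i = 0 → psum L 2 ≤ 1 →
      d < psum L 2 → R ∈ Set.Icc a b → ∑ i, u i = 0 →
      classReal (jetG G (s, s ^ 2 + q ^ 2)) (jetM M (s, s ^ 2 + q ^ 2)) (jetC C (s, s ^ 2 + q ^ 2))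
        L c u s q 1 R y ≤ -t + η := by
  have hd' : ∀ c, ∃ d < (1 : ℝ), ∀ x ∈ region {(s, q)} a b, d < psum x.1.2.1 2 →
      formAt G M C c x + (t - η) * x.2.2.2 ^ 2 ≤ 0 := by
    intro c
    set g := fun x : Pt => formAt G M C c x + (t - η) * x.2.2.2 ^ 2
    set S := region {(s, q)} a b ∩ g ⁻¹' Set.Ici 0
    have hS : IsCompact S := (isCompact_region isCompact_singleton a b).inter_right
      (isClosed_Ici.preimage ((continuous_formAt hG hM hC c).add (by fun_prop)))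
    have hlt : ∀ x ∈ S, psum x.1.2.1 2 < 1 := by
      rintro x ⟨⟨⟨he, ⟨hL, hP⟩, hR⟩, hu, hn⟩, hx⟩
      by_contra hc
      have h1 : psum x.1.2.1 2 = 1 := le_antisymm hP (not_lt.1 hc)
      obtain ⟨⟨es, eq⟩⟩ : (x.1.1.1 = s ∧ x.1.1.2 = q) ∧ True :=
        ⟨⟨congrArg Prod.fst he, congrArg Prod.snd he⟩, trivial⟩
      simp only [g, Set.mem_preimage, Set.mem_Ici, formAt, es, eq] at hx
      have hw := sum_sq_le_weight x.1.2.1 x.2.1 c
      have hcls := h s q hd.1 hd.2.1 hd.2.2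
      by_cases ho : x.2.2.2 = 0
      · rw [ho, mul_zero, classReal, classOf_zero] at hx
        rw [ho] at hn
        have := top_disc hcls ht hL hP hu c x.2.2.1
        nlinarith [mul_le_mul_of_nonneg_left hw ht.le]
      · set o := x.2.2.2
        have hu1 : ∑ i, (o⁻¹ • x.2.1) i = 0 := by simp [← Finset.mul_sum, hu]
        have key := classReal_unit hcls hL hu1 h1 c (R := x.1.2.2) (lt_of_lt_of_le ha hR.1)
          (x.2.2.1 / o)
        have e := classReal_smul (jetG G (s, s ^ 2 + q ^ 2)) (jetM M (s, s ^ 2 + q ^ 2))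
          (jetC C (s, s ^ 2 + q ^ 2)) x.1.2.1 (o⁻¹ • x.2.1) c o s q 1 x.1.2.2 (x.2.2.1 / o)
        rw [smul_inv_smul₀ ho, mul_one, mul_div_cancel₀ _ ho, mul_comm o x.1.2.2] at e
        rw [e] at hx
        have hw0 : 0 ≤ weightSum x.1.2.1 (o⁻¹ • x.2.1) 1 c :=
          (Finset.sum_nonneg fun i _ => sq_nonneg _).trans (sum_sq_le_weight _ _ _)
        have k1 := mul_le_mul_of_nonneg_left key (sq_nonneg o)
        have k2 : 0 < η * o ^ 2 := by positivity
        have k3 := mul_nonneg (mul_nonneg ht.le (sq_nonneg o))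
          (add_nonneg hw0 (sq_nonneg (x.2.2.1 / o)))
        linarith
    rcases S.eq_empty_or_nonempty with he | hne
    · refine ⟨0, zero_lt_one, fun x hx _ => (not_le.1 fun h0 => ?_).le⟩
      exact Set.eq_empty_iff_forall_notMem.1 he x ⟨hx, h0⟩
    · obtain ⟨m, hm, hmax⟩ := hS.exists_isMaxOn hne (f := fun x : Pt => psum x.1.2.1 2)
        (by unfold psum; fun_prop)
      refine ⟨psum m.1.2.1 2, hlt m hm, fun x hx hd => (not_le.1 fun h0 => ?_).le⟩
      exact absurd hd (not_lt.2 (hmax ⟨hx, h0⟩))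
  choose d hd1 hd2 using hd'
  refine ⟨Finset.univ.sup' Finset.univ_nonempty d, by simp [Finset.sup'_lt_iff, hd1],
    fun c R y L u hL hP hlt hR hu => ?_⟩
  obtain ⟨r, hr, hx⟩ := exists_unit (y := y) (Set.mem_singleton (s, q)) hL hP hR hu
  have := hd2 c _ hx (lt_of_le_of_lt (Finset.le_sup' d (Finset.mem_univ c)) hlt)
  simp only [formAt] at this
  have e := classReal_smul (jetG G (s, s ^ 2 + q ^ 2)) (jetM M (s, s ^ 2 + q ^ 2))
    (jetC C (s, s ^ 2 + q ^ 2)) L u c r s q 1 R y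
  rw [mul_one] at e
  rw [mul_comm R r, e] at this
  nlinarith [pow_pos hr 2]

/-- The values of the scalar inequality at `z`, and the limit bound. -/
def ineqValues (G : ℝ × ℝ → ℝ) (M : Fin 2 → ℝ × ℝ → ℝ) (C : Fin 2 → Fin 5 → ℝ × ℝ → ℝ)
    (t ε : ℝ) (z : ℝ × ℝ × ℝ) : Set ℝ :=
  insert (-t * √z.1) {w | ∃ (L : Fin 4 → ℝ) (q : ℝ) (c : Fin 4) (u : Fin 4 → ℝ) (y : ℝ),
    ∑ i, L i = 0 ∧ psum L 2 = z.1 ∧ (z.2.1, q) ∈ quarter ∧ z.2.1 ^ 2 + q ^ 2 = z.2.2 ∧
    ∑ i, u i = 0 ∧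
    w = block (coefOf (regPhi G ε) z) (fun m => coefOf (regA M ε m) z)
        (fun j => coefOf (regB C ε j) z) L c u y q +
      constPart (coefOf (regPhi G ε) z) (fun m => coefOf (regA M ε m) z)
        (fun j => coefOf (regB C ε j) z) L z.2.1}

include hG hM hC in
lemma ineqValues_le {t ε B : ℝ} (hε : 0 < ε) {z : ℝ × ℝ × ℝ} (hz : 0 ≤ z.1)
    (h0 : -t * √z.1 ≤ B)
    (h : ∀ (q : ℝ) (c : Fin 4) (L u : Fin 4 → ℝ) (y : ℝ), (z.2.1, q) ∈ quarter →
      z.2.1 ^ 2 + q ^ 2 = z.2.2 → ∑ i, L i = 0 → psum L 2 = z.1 / regRho ε z.1 ^ 2 →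
      ∑ i, u i = 0 →
      regRho ε z.1 * classReal (jetG G (z.2.1, z.2.1 ^ 2 + q ^ 2)) (jetM M (z.2.1, z.2.1 ^ 2 + q ^ 2))
        (jetC C (z.2.1, z.2.1 ^ 2 + q ^ 2)) L c u z.2.1 q 1 (regRho ε z.1) y ≤ B) :
    ∀ w ∈ ineqValues G M C t ε z, w ≤ B := by
  rintro w (rfl | ⟨L, q, c, u, y, hL, hP, hd, hPe, hu, rfl⟩)
  · exact h0
  set ρ := regRho ε z.1
  have hρ : 0 < ρ := regRho_pos hε.ne' _
  obtain ⟨e1, e2, e3⟩ := coefs_eq hG hM hC hε.ne' hz
  have hz2 : z.2 = (z.2.1, z.2.1 ^ 2 + q ^ 2) := Prod.ext rfl hPe.symm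
  rw [e1, e2, e3, hz2, show L = ρ • (ρ⁻¹ • L) from (smul_inv_smul₀ hρ.ne' L).symm,
    show u = ρ • (ρ⁻¹ • u) from (smul_inv_smul₀ hρ.ne' u).symm,
    block_scale hρ.ne' (by simp [← Finset.mul_sum, hL]) (by simp [← Finset.mul_sum, hu])]
  refine h q c (ρ⁻¹ • L) (ρ⁻¹ • u) y hd hPe (by simp [← Finset.mul_sum, hL]) ?_
    (by simp [← Finset.mul_sum, hu])
  rw [(moments_smul ρ⁻¹ 1 L u c).2.1, hP, inv_pow, inv_mul_eq_div]

lemma unit_le {ε Q : ℝ} (hε : 0 < ε) (hQ : 0 ≤ Q) : Q / regRho ε Q ^ 2 ≤ 1 := by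
  rw [regRho_eq hQ, Real.sq_sqrt (by positivity)]
  exact (div_le_one (by positivity)).2 (le_add_of_nonneg_right (sq_nonneg ε))

/-- Stable smooth cones in dimension five are flat, given a certificate of the class at `ρ = 1`. -/
theorem flat_of_class {t : ℝ} (ht : 0 < t) {G : ℝ × ℝ → ℝ} {M : Fin 2 → ℝ × ℝ → ℝ}
    {C : Fin 2 → Fin 5 → ℝ × ℝ → ℝ} (hG : ContDiff ℝ 2 G) (hM : ∀ m, ContDiff ℝ 2 (M m))
    (hC : ∀ e j, ContDiff ℝ 2 (C e j))
    (hG0 : ∀ p : ℝ × ℝ, p.1 ∈ Set.Icc (0 : ℝ) 1 → p.2 ∈ Set.Icc (0 : ℝ) 1 → 0 ≤ G p)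
    (hclass : ClassAll G M C t) (hedge : EdgeIneq (jetG G (0, 1)) (jetM M (0, 1)) (jetC C (0, 1)) t)
    {u : Euc 5 → ℝ} (hu : IsSmoothCone u) (hmin : IsStable u) :
    (∀ x, u x = 0) ∨ ∃ e : Euc 5, ‖e‖ = 1 ∧ ∀ x, u x = max ⟪e, x⟫ 0 := by
  obtain ⟨E, hE⟩ := edge_bound ht hedge
  set β : ℝ → ℝ × ℝ × ℝ → ℝ := fun ε z => sSup (ineqValues G M C t ε z)
  -- a uniform bound of the values for bounded arguments
  have hup : ∀ R : ℝ, ∃ K : ℝ, 0 ≤ K ∧ ∀ ε ∈ Set.Ioc (0 : ℝ) R, ∀ z : ℝ × ℝ × ℝ, 0 ≤ z.1 → z.1 ≤ R →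
      ∀ w ∈ ineqValues G M C t ε z, w ≤ K * regRho ε z.1 := by
    intro R
    obtain ⟨K, hK0, hK⟩ := classReal_le hG hM hC ht hclass √(R + R ^ 2)
    refine ⟨K, hK0, fun ε hε z hz hzR => ?_⟩
    have hρ : regRho ε z.1 ∈ Set.Icc 0 √(R + R ^ 2) := by
      rw [regRho_eq hz]
      exact ⟨Real.sqrt_nonneg _, Real.sqrt_le_sqrt (by nlinarith [hε.1, hε.2])⟩
    refine ineqValues_le hG hM hC hε.1 hz ?_ fun q c L v y hd _ hL hP hv => ?_
    · have := mul_nonneg ht.le (Real.sqrt_nonneg z.1)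
      linarith [mul_nonneg hK0 hρ.1]
    · rw [mul_comm K]
      exact mul_le_mul_of_nonneg_left
        (hK c _ q _ y L v hd hL (hP ▸ unit_le hε.1 hz) hρ hv) hρ.1
  refine flat_of_ineq hu hmin (Φ := regPhi G) (A := regA M) (B := regB C) (β := β)
    (δ := fun ε => E * ε + E ^ 2 * ε ^ 2 / (4 * t)) (β₀ := fun z => -t * √z.1) ?_ ?_ ?_
    (by fun_prop) (fun z _ => by nlinarith [Real.sqrt_nonneg z.1]) ?_ ?_
  · have : Continuous fun ε : ℝ => E * ε + E ^ 2 * ε ^ 2 / (4 * t) := by fun_prop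
    simpa using (this.tendsto 0).mono_left nhdsWithin_le_nhds
  · filter_upwards [self_mem_nhdsWithin] with ε (hε : 0 < ε)
    refine ⟨contDiff_regFun hε.ne' 1 le_rfl hG,
      fun m => contDiff_regFun hε.ne' _ (by norm_num) (hM m),
      fun j => (contDiff_regFun hε.ne' _ (by norm_num) (hC 0 j)).add
        (contDiff_regFun hε.ne' _ (by norm_num) (hC 1 j)),
      fun z hz hs hP => mul_nonneg (zpow_nonneg (regRho_pos hε.ne' _).le _) (hG0 z.2 hs hP), ?_, ?_⟩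
    · intro L hL s q hs hq hle
      set z : ℝ × ℝ × ℝ := (psum L 2, s, s ^ 2 + q ^ 2)
      have hz : (0 : ℝ) ≤ psum L 2 := Finset.sum_nonneg fun i _ => sq_nonneg _
      have hcls := hclass s q hs.le hq hle
      obtain ⟨e1, e2, -⟩ := coefs_eq hG hM hC hε.ne' (z := z) hz
      refine ⟨?_, fun d => ?_, fun c v y hv => ?_⟩
      · rw [e1]
        exact mul_nonneg (zpow_nonneg (regRho_pos hε.ne' _).le _) (ht.le.trans hcls.pos)
      · rw [congrFun e2 0, congrFun e2 1]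
        set ρ := regRho ε z.1
        have hρ : 0 < ρ := regRho_pos hε.ne' _
        have hl : 4 * (L d / ρ) ^ 2 ≤ 3 * 1 := by
          have h1 : 4 / 3 * L d ^ 2 ≤ psum L 2 := by
            have hs' := hL
            rw [psum, Fin.sum_univ_succAbove _ d, Fin.sum_univ_three]
            rw [Fin.sum_univ_succAbove _ d, Fin.sum_univ_three] at hs'
            have e := congrArg (· ^ 2) (show L (d.succAbove 0) + L (d.succAbove 1) +
              L (d.succAbove 2) = -L d by linarith)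
            simp only [neg_sq] at e
            linarith [sq_nonneg (L (d.succAbove 0) - L (d.succAbove 1)),
              sq_nonneg (L (d.succAbove 0) - L (d.succAbove 2)),
              sq_nonneg (L (d.succAbove 1) - L (d.succAbove 2))]
          have h2 := unit_le hε hz
          rw [div_le_one (by positivity)] at h2
          rw [div_pow, mul_div_assoc', div_le_iff₀ (by positivity)]
          linarith
        have := triple_of_extremes (A₀ := (jetM M z.2 0).1 + t) (A₁ := (jetM M z.2 1).1) (Q := 1)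
          (by rw [mul_one]; exact hcls.triple₁) (by rw [mul_one]; exact hcls.triple₂) hl
        simp only [coefA, powCoef]
        norm_num [_root_.zpow_neg, zpow_ofNat]
        field_simp at this ⊢
        nlinarith
      · obtain ⟨K, -, hK⟩ := hup (max ε (psum L 2))
        exact le_csSup ⟨_, fun w hw => hK ε ⟨hε, le_max_left _ _⟩ z hz (le_max_right _ _) w hw⟩
          (Or.inr ⟨L, q, c, v, y, hL, rfl, ⟨hs.le, hq, hle⟩, rfl, hv, rfl⟩)
    · refine boundaryIneq_of_twoPoint fun Q ν r hν hQ => ?_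
      have hQ0 : 0 ≤ Q := by rw [← hQ]; positivity
      have e := hE ε Q ν r hε hQ0 hν hQ
      rw [← regRho_eq hQ0] at e
      exact e
  · intro R
    obtain ⟨K, hK0, hK⟩ := hup (max R 1)
    refine ⟨K * √(max R 1 + 1), ?_⟩
    filter_upwards [Ioc_mem_nhdsGT (zero_lt_one' ℝ)] with ε hε z hz _ _
    refine csSup_le ⟨_, Set.mem_insert _ _⟩ fun w hw =>
      (hK ε ⟨hε.1, hε.2.trans (le_max_right _ _)⟩ z hz.1 (hz.2.trans (le_max_left _ _)) w hw).trans ?_
    rw [regRho_eq hz.1]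
    exact mul_le_mul_of_nonneg_left
      (Real.sqrt_le_sqrt (by nlinarith [hz.2, le_max_left R 1, hε.1, hε.2])) hK0
  · exact fun z hz _ _ h => (Real.sqrt_eq_zero hz).1 ((mul_eq_zero.1 h).resolve_left (by linarith))
  · intro z hz _ _ η hη
    rcases eq_or_lt_of_le hz with h0 | h0
    · obtain ⟨K, hK0, hK⟩ := hup 1
      have hlim : Tendsto (fun ε : ℝ => K * ε) (𝓝[>] 0) (𝓝 0) := by
        simpa using ((continuous_const_mul K).tendsto 0).mono_left nhdsWithin_le_nhds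
      filter_upwards [Ioc_mem_nhdsGT (zero_lt_one' ℝ), hlim.eventually_le_const hη] with ε hε hεη
      refine csSup_le ⟨_, Set.mem_insert _ _⟩ fun w hw => ?_
      have := hK ε hε z hz (by linarith) w hw
      rw [regRho_eq hz, ← h0, zero_add, Real.sqrt_sq hε.1.le] at this
      rw [← h0, Real.sqrt_zero, mul_zero, zero_add]
      linarith
    · set ρ₀ := √z.1
      have hρ₀ : 0 < ρ₀ := Real.sqrt_pos.2 h0
      set η' := η / (ρ₀ + 1)
      by_cases hex : ∃ q, (z.2.1, q) ∈ quarter ∧ z.2.1 ^ 2 + q ^ 2 = z.2.2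
      · obtain ⟨q, hq, hqe⟩ := hex
        obtain ⟨d, hd1, hd⟩ := classReal_near hG hM hC ht hclass (b := ρ₀ + 1) hq hρ₀
          (show 0 < η' by positivity)
        have hlim : Tendsto (fun ε : ℝ => z.1 / (z.1 + ε ^ 2)) (𝓝[>] 0) (𝓝 1) := by
          have hc : ContinuousAt (fun ε : ℝ => z.1 / (z.1 + ε ^ 2)) 0 :=
            ContinuousAt.div continuousAt_const (by fun_prop) (by simpa using h0.ne')
          simpa [h0.ne'] using hc.tendsto.mono_left nhdsWithin_le_nhds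
        filter_upwards [Ioc_mem_nhdsGT (zero_lt_one' ℝ), hlim.eventually (lt_mem_nhds hd1)] with ε hε hεd
        refine csSup_le ⟨_, Set.mem_insert _ _⟩ (ineqValues_le hG hM hC hε.1 hz (by linarith) ?_)
        intro q' c L v y hq' hqe' hL hP hv
        have : q' = q := (pow_left_inj₀ hq'.2.1 hq.2.1 two_ne_zero).1 (by linarith)
        subst this
        have hρ : regRho ε z.1 ∈ Set.Icc ρ₀ (ρ₀ + 1) := by
          rw [regRho_eq hz]
          refine ⟨Real.sqrt_le_sqrt (by nlinarith), (Real.sqrt_le_left (by positivity)).2 ?_⟩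
          nlinarith [Real.sq_sqrt hz, hε.1, hε.2]
        have key := hd c _ y L v hL (hP ▸ unit_le hε.1 hz) ?_ hρ hv
        · refine (mul_le_mul_of_nonneg_left key (hρ₀.le.trans hρ.1)).trans ?_
          have k1 := mul_le_mul_of_nonneg_right hρ.2 (show (0 : ℝ) ≤ η' by positivity)
          have k2 : (ρ₀ + 1) * η' = η := by simp only [η']; field_simp
          have k3 := mul_le_mul_of_nonneg_left hρ.1 ht.le
          linarith
        · rwa [hP, regRho_eq hz, Real.sq_sqrt (by positivity)]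
      · filter_upwards [Ioc_mem_nhdsGT (zero_lt_one' ℝ)] with ε hε
        exact csSup_le ⟨_, Set.mem_insert _ _⟩ (ineqValues_le hG hM hC hε.1 hz (by linarith)
          fun q _ _ _ _ hq hqe => absurd ⟨q, hq, hqe⟩ hex)

end

end Vale.Agent.P098.Cert
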