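import Vale.Agent.P098.Cert.Vector
import Vale.Agent.P098.Cert.EdgePoly

/-!
P098, the scalar conditions and the boundary inequalities of the certificate.
-/

namespace Vale.Agent.P098.Cert

open Reduce

noncomputable section

/-- The margin of the certificate. -/
def vecT : ℝ := 1 / 10000

/-- The scalar conditions of the class for the vector. -/
theorem scalar_vec {s q : ℝ} (hs : 0 ≤ s) (h : s ^ 2 + q ^ 2 ≤ 1) :
    let G := jetG vecG (s, s ^ 2 + q ^ 2)
    let M := jetM vecM (s, s ^ 2 + q ^ 2)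
    vecT ≤ G.1 ∧ (M 0).1 + vecT ≤ 0 ∧ 6 * ((M 0).1 + vecT) - 2 * √3 * (M 1).1 ≤ 0 ∧
      6 * ((M 0).1 + vecT) + 2 * √3 * (M 1).1 ≤ 0 ∧
      13 / 6 * (M 0).1 + 20 / 9 * (M 1).1 + 5 / 21 * G.1 + vecT ≤ 0 ∧
      13 / 6 * (M 0).1 - 20 / 9 * (M 1).1 + 5 / 21 * G.1 + vecT ≤ 0 := by
  intro G M
  simp only [G, M, jetG, jetM, jetOf, vecG, vecM, quad, vecT, Matrix.cons_val_zero,
    Matrix.cons_val_one]
  have hP : 0 ≤ q ^ 2 := sq_nonneg q
  generalize q ^ 2 = v at h hP ⊢
  have hs1 : s ≤ 1 := by nlinarith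
  have k : 0 ≤ 2 * √3 ∧ 2 * √3 ≤ 52 / 15 :=
    ⟨by positivity, by nlinarith [Real.sq_sqrt (show (0 : ℝ) ≤ 3 by norm_num), Real.sqrt_nonneg 3]⟩
  have n0 : ((-191087 / 1000000) + (-40163 / 200000) * s + (34257 / 1000000) * (s ^ 2 + v) + (-121389 / 500000) * s ^ 2 + (33067 / 250000) * (s * (s ^ 2 + v)) + (21531 / 1000000) * (s ^ 2 + v) ^ 2 : ℝ) ≤ 0 := by
    nlinarith [mul_nonneg hs (sub_nonneg.2 hs1), mul_nonneg (sub_nonneg.2 hs1) hP,
      mul_nonneg hP (sub_nonneg.2 h), mul_nonneg hs (sub_nonneg.2 h), mul_nonneg (sub_nonneg.2 hs1) (sub_nonneg.2 h)]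
  have t1 : ((-90467 / 100000) + (-15527 / 100000) * s + (767303 / 2500000) * (s ^ 2 + v) + (-2823109 / 1250000) * s ^ 2 + (-1502431 / 3750000) * (s * (s ^ 2 + v)) + (-658951 / 2500000) * (s ^ 2 + v) ^ 2 : ℝ) ≤ 0 := by
    nlinarith [mul_nonneg hs (sub_nonneg.2 hs1), mul_nonneg (sub_nonneg.2 hs1) hP,
      mul_nonneg hP (sub_nonneg.2 h), mul_nonneg hs (sub_nonneg.2 h), mul_nonneg (sub_nonneg.2 hs1) (sub_nonneg.2 h)]
  have t2 : ((-694187 / 500000) + (-225451 / 100000) * s + (260407 / 2500000) * (s ^ 2 + v) + (-818561 / 1250000) * s ^ 2 + (7454491 / 3750000) * (s * (s ^ 2 + v)) + (1304881 / 2500000) * (s ^ 2 + v) ^ 2 : ℝ) ≤ 0 := by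
    nlinarith [mul_nonneg hs (sub_nonneg.2 hs1), mul_nonneg (sub_nonneg.2 hs1) hP,
      mul_nonneg hP (sub_nonneg.2 h), mul_nonneg hs (sub_nonneg.2 h), mul_nonneg (sub_nonneg.2 hs1) (sub_nonneg.2 h)]
  have r1 : ((-21405217 / 42000000) + (-443173 / 400000) * s + (55421 / 6000000) * (s ^ 2 + v) + (-36097 / 3000000) * s ^ 2 + (4734583 / 4500000) * (s * (s ^ 2 + v)) + (1790543 / 6000000) * (s ^ 2 + v) ^ 2 : ℝ) ≤ 0 := by
    nlinarith [mul_nonneg hs (sub_nonneg.2 hs1), mul_nonneg (sub_nonneg.2 hs1) hP,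
      mul_nonneg hP (sub_nonneg.2 h), mul_nonneg hs (sub_nonneg.2 h), mul_nonneg (sub_nonneg.2 hs1) (sub_nonneg.2 h)]
  have r2 : ((-2794139 / 14000000) + (285281 / 1200000) * s + (835261 / 6000000) * (s ^ 2 + v) + (-3120017 / 3000000) * s ^ 2 + (-2155357 / 4500000) * (s * (s ^ 2 + v)) + (-1230737 / 6000000) * (s ^ 2 + v) ^ 2 : ℝ) ≤ 0 := by
    nlinarith [mul_nonneg hs (sub_nonneg.2 hs1), mul_nonneg (sub_nonneg.2 hs1) hP,
      mul_nonneg hP (sub_nonneg.2 h), mul_nonneg hs (sub_nonneg.2 h), mul_nonneg (sub_nonneg.2 hs1) (sub_nonneg.2 h)]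
  refine ⟨by norm_num, by linarith, ?_, ?_, by linarith, by linarith⟩
  · rcases le_total 0 ((-13953 / 200000) + (-12111 / 40000) * s + (-7311 / 250000) * (s ^ 2 + v) + (115647 / 500000) * s ^ 2 + (344497 / 1000000) * (s * (s ^ 2 + v)) + (56649 / 500000) * (s ^ 2 + v) ^ 2 : ℝ) with hm | hm
    · linarith [mul_nonneg k.1 hm]
    · linarith [mul_le_mul_of_nonpos_right k.2 hm]
  · rcases le_total 0 ((-13953 / 200000) + (-12111 / 40000) * s + (-7311 / 250000) * (s ^ 2 + v) + (115647 / 500000) * s ^ 2 + (344497 / 1000000) * (s * (s ^ 2 + v)) + (56649 / 500000) * (s ^ 2 + v) ^ 2 : ℝ) with hm | hm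
    · linarith [mul_le_mul_of_nonneg_right k.2 hm]
    · linarith [mul_nonpos_of_nonneg_of_nonpos k.1 hm]

/-- The boundary inequalities for the vector. -/
theorem edgeIneq_vec : EdgeIneq (jetG vecG (0, 1)) (jetM vecM (0, 1)) (jetC vecC (0, 1)) vecT := by
  refine edgeIneq_of_poly (w := 3 / 10) (by norm_num) (fun x h0 h1 => ?_) (fun x h0 h1 => ?_) fun x h0 h1 => ?_
  · simp [edgeLow, jetC, jetOf, vecC, quad]
    rcases le_total x (-(13 / 20 : ℝ)) with hb | hb
    · have u := sub_nonneg.2 hb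
      have l := sub_nonneg.2 h0
      linear_combination 11999814 / 34328125 * mul_nonneg (pow_nonneg l 0) (pow_nonneg u 3) +
        22725933 / 68656250 * mul_nonneg (pow_nonneg l 1) (pow_nonneg u 2) +
        15153759 / 274625000 * mul_nonneg (pow_nonneg l 2) (pow_nonneg u 1) +
        5854113 / 2197000000 * mul_nonneg (pow_nonneg l 3) (pow_nonneg u 0)
    have ha := hb
    rcases le_total x (-(611 / 960 : ℝ)) with hb | hb
    · have u := sub_nonneg.2 hb
      have l := sub_nonneg.2 ha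
      linear_combination 374663232 / 34328125 * mul_nonneg (pow_nonneg l 0) (pow_nonneg u 3) +
        709318764 / 34328125 * mul_nonneg (pow_nonneg l 1) (pow_nonneg u 2) +
        1680923379 / 137312500 * mul_nonneg (pow_nonneg l 2) (pow_nonneg u 1) +
        5320685817 / 2197000000 * mul_nonneg (pow_nonneg l 3) (pow_nonneg u 0)
    have ha := hb
    rcases le_total x (-(299 / 480 : ℝ)) with hb | hb
    · have u := sub_nonneg.2 hb
      have l := sub_nonneg.2 ha
      linear_combination 5320685817 / 2197000000 * mul_nonneg (pow_nonneg l 0) (pow_nonneg u 3) +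
        2514670419 / 1098500000 * mul_nonneg (pow_nonneg l 1) (pow_nonneg u 2) +
        416383611 / 549250000 * mul_nonneg (pow_nonneg l 2) (pow_nonneg u 1) +
        225093153 / 274625000 * mul_nonneg (pow_nonneg l 3) (pow_nonneg u 0)
    have ha := hb
    rcases le_total x (-(143 / 240 : ℝ)) with hb | hb
    · have u := sub_nonneg.2 hb
      have l := sub_nonneg.2 ha
      linear_combination 225093153 / 2197000000 * mul_nonneg (pow_nonneg l 0) (pow_nonneg u 3) +
        804727383 / 1098500000 * mul_nonneg (pow_nonneg l 1) (pow_nonneg u 2) +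
        1523470971 / 549250000 * mul_nonneg (pow_nonneg l 2) (pow_nonneg u 1) +
        569173509 / 274625000 * mul_nonneg (pow_nonneg l 3) (pow_nonneg u 0)
    have ha := hb
    rcases le_total x (-(13 / 24 : ℝ)) with hb | hb
    · have u := sub_nonneg.2 hb
      have l := sub_nonneg.2 ha
      linear_combination 569173509 / 2197000000 * mul_nonneg (pow_nonneg l 0) (pow_nonneg u 3) +
        359909061 / 219700000 * mul_nonneg (pow_nonneg l 1) (pow_nonneg u 2) +
        70315863 / 21970000 * mul_nonneg (pow_nonneg l 2) (pow_nonneg u 1) +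
        769107 / 439400 * mul_nonneg (pow_nonneg l 3) (pow_nonneg u 0)
    have ha := hb
    rcases le_total x (-(13 / 30 : ℝ)) with hb | hb
    · have u := sub_nonneg.2 hb
      have l := sub_nonneg.2 ha
      linear_combination 769107 / 3515200 * mul_nonneg (pow_nonneg l 0) (pow_nonneg u 3) +
        25683303 / 21970000 * mul_nonneg (pow_nonneg l 1) (pow_nonneg u 2) +
        52885581 / 27462500 * mul_nonneg (pow_nonneg l 2) (pow_nonneg u 1) +
        31048029 / 34328125 * mul_nonneg (pow_nonneg l 3) (pow_nonneg u 0)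
    have ha := hb
    have u := sub_nonneg.2 h1
    have l := sub_nonneg.2 ha
    linear_combination 31048029 / 2197000000 * mul_nonneg (pow_nonneg l 0) (pow_nonneg u 3) +
      20129253 / 219700000 * mul_nonneg (pow_nonneg l 1) (pow_nonneg u 2) +
      3264057 / 21970000 * mul_nonneg (pow_nonneg l 2) (pow_nonneg u 1) +
      27 / 2197000 * mul_nonneg (pow_nonneg l 3) (pow_nonneg u 0)
  · simp [edgeEven, edgeOdd, jetG, jetM, jetC, jetOf, vecG, vecM, vecC, quad, vecT]
    rcases le_total x (-(13 / 20 : ℝ)) with hb | hb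
    · have u := sub_nonneg.2 hb
      have l := sub_nonneg.2 h0
      linear_combination 2739306441544 / 93983540625 * mul_nonneg (pow_nonneg l 0) (pow_nonneg u 5) +
        3144499844741 / 31327846875 * mul_nonneg (pow_nonneg l 1) (pow_nonneg u 4) +
        1333865171224 / 10442615625 * mul_nonneg (pow_nonneg l 2) (pow_nonneg u 3) +
        1016038079443 / 13923487500 * mul_nonneg (pow_nonneg l 3) (pow_nonneg u 2) +
        8564045189 / 464116250 * mul_nonneg (pow_nonneg l 4) (pow_nonneg u 1) +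
        18272410161 / 9282325000 * mul_nonneg (pow_nonneg l 5) (pow_nonneg u 0)
    have ha := hb
    rcases le_total x (-(13 / 30 : ℝ)) with hb | hb
    · have u := sub_nonneg.2 hb
      have l := sub_nonneg.2 ha
      linear_combination 18272410161 / 9282325000 * mul_nonneg (pow_nonneg l 0) (pow_nonneg u 5) +
        1144319783 / 928232500 * mul_nonneg (pow_nonneg l 1) (pow_nonneg u 4) +
        57011843743 / 13923487500 * mul_nonneg (pow_nonneg l 2) (pow_nonneg u 3) +
        516477397399 / 20885231250 * mul_nonneg (pow_nonneg l 3) (pow_nonneg u 2) +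
        1006359070244 / 31327846875 * mul_nonneg (pow_nonneg l 4) (pow_nonneg u 1) +
        1147357232564 / 93983540625 * mul_nonneg (pow_nonneg l 5) (pow_nonneg u 0)
    have ha := hb
    have u := sub_nonneg.2 h1
    have l := sub_nonneg.2 ha
    linear_combination 286839308141 / 751868325000 * mul_nonneg (pow_nonneg l 0) (pow_nonneg u 5) +
      310339001861 / 83540925000 * mul_nonneg (pow_nonneg l 1) (pow_nonneg u 4) +
      742609093081 / 55693950000 * mul_nonneg (pow_nonneg l 2) (pow_nonneg u 3) +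
      39701736327 / 1856465000 * mul_nonneg (pow_nonneg l 3) (pow_nonneg u 2) +
      11592340119 / 742586000 * mul_nonneg (pow_nonneg l 4) (pow_nonneg u 1) +
      312560289 / 74258600 * mul_nonneg (pow_nonneg l 5) (pow_nonneg u 0)
  · simp [edgeEven, edgeOdd, jetG, jetM, jetC, jetOf, vecG, vecM, vecC, quad, vecT]
    have u := sub_nonneg.2 h1
    have l := sub_nonneg.2 h0
    linear_combination 341251884889 / 12029893200000 * mul_nonneg (pow_nonneg l 0) (pow_nonneg u 5) +
      253410767179 / 2673309600000 * mul_nonneg (pow_nonneg l 1) (pow_nonneg u 4) +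
      92211247897 / 111387900000 * mul_nonneg (pow_nonneg l 2) (pow_nonneg u 3) +
      55292081511 / 29703440000 * mul_nonneg (pow_nonneg l 3) (pow_nonneg u 2) +
      8626160403 / 5940688000 * mul_nonneg (pow_nonneg l 4) (pow_nonneg u 1) +
      875549331 / 2376275200 * mul_nonneg (pow_nonneg l 5) (pow_nonneg u 0)

end

end Vale.Agent.P098.Cert
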