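import Vale.Agent.P098.Reduce.TwoPointEdge

/-!
P098, the certificate class in dimension five: `F = r⁻³ ρ G`, `A₀ = M₁ / ρ`, `A₁ = M₂ / ρ²`,
`B_j = ρ^(1-j) (C₀ⱼ + ρ C₁ⱼ)` with `G, M, C` functions of `(s, P)`.  At a point the inequalities
are `ρ` times a quadratic form in `(u, o = 1, R = ρ, y)` with coefficients free of `ρ`.
-/

open Matrix

namespace Vale.Agent.P098.Cert

open Reduce

noncomputable section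

/-- A function of `(s, P)` at a point with its two partial derivatives. -/
abbrev Jet : Type := ℝ × ℝ × ℝ

/-- `ρ ^ e` times a jet as a coefficient of `(Q, s, P)`, `ρ² = Q + const`. -/
def powCoef (e : ℤ) (ρ : ℝ) (X : Jet) : Coef :=
  (ρ ^ e * X.1, (e : ℝ) / 2 * ρ ^ (e - 2) * X.1, ρ ^ e * X.2.1, ρ ^ e * X.2.2)

/-- The test coefficient. -/
def coefPhi (ρ : ℝ) (G : Jet) : Coef := powCoef 1 ρ G

/-- The coefficients of `T : b` and `T : b²`. -/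
def coefA (ρ : ℝ) (M : Fin 2 → Jet) (m : Fin 2) : Coef := powCoef (-1 - (m : ℕ)) ρ (M m)

/-- The coefficients of `b^j p`. -/
def coefB (ρ : ℝ) (C : Fin 2 → Fin 5 → Jet) (j : Fin 5) : Coef :=
  powCoef (1 - (j : ℕ)) ρ (C 0 j) + powCoef (2 - (j : ℕ)) ρ (C 1 j)

/-- The quadratic form of one eigendirection on the unit scale, in terms of the moments it depends
on; `o` stands for one and `R` for `ρ`. -/
def classOf (G : Jet) (M : Fin 2 → Jet) (C : Fin 2 → Fin 5 → Jet)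
    (μ s q o R y U₁ U₂ U₃ W₁ W₂ P₂ P₃ P₄ P₅ : ℝ) : ℝ :=
  let d : ℝ → Jet → ℝ := fun e X => e * X.1 * U₁ + (X.2.1 * o + 2 * μ * X.2.2 * R) * q
  let b : Fin 5 → ℝ := fun j => (C 0 j).1 * o + (C 1 j).1 * R
  let db : Fin 5 → ℝ := fun j =>
    o * d (1 - (j : ℕ)) (C 0 j) + R * d (2 - (j : ℕ)) (C 1 j)
  y * d 1 G - y ^ 2 * G.1 + (d (-1) (M 0) * U₁ + (M 0).1 * W₁) +
    (d (-2) (M 1) * U₂ + (M 1).1 * W₂) +
    q * (db 0 + μ * db 1 + (μ ^ 2 * db 2 + b 2 * U₁) + (μ ^ 3 * db 3 + b 3 * (U₂ + μ * U₁)) +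
      (μ ^ 4 * db 4 + b 4 * (U₃ + μ * U₂ + μ ^ 2 * U₁))) +
    (o ^ 2 * (9 / 4 * G.1 + 4 * (M 0).1 * P₂ + 4 * (M 1).1 * P₃) - 4 * s * b 0 * o + b 1 * R * P₂ +
      b 2 * (R * P₃ - s * o * P₂) + b 3 * (R * P₄ - s * o * P₃) + b 4 * (R * P₅ - s * o * P₄))

/-- The form of the scalar inequality is `ρ` times the class form. -/
theorem formOf_scale {ρ : ℝ} (hρ : ρ ≠ 0) (G : Jet) (M : Fin 2 → Jet) (C : Fin 2 → Fin 5 → Jet)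
    (μ s q y U₁ U₂ U₃ W₁ W₂ P₂ P₃ P₄ P₅ : ℝ) :
    formOf (coefPhi ρ G) (coefA ρ M) (coefB ρ C) (ρ * μ) s q y 1 (ρ ^ 2 * U₁) (ρ ^ 3 * U₂)
        (ρ ^ 4 * U₃) (ρ ^ 2 * W₁) (ρ ^ 3 * W₂) (ρ ^ 2 * P₂) (ρ ^ 3 * P₃) (ρ ^ 4 * P₄) (ρ ^ 5 * P₅) =
      ρ * classOf G M C μ s q 1 ρ y U₁ U₂ U₃ W₁ W₂ P₂ P₃ P₄ P₅ := by
  simp only [formOf, classOf, coefPhi, coefA, coefB, powCoef, Prod.fst_add, Prod.snd_add,
    Fin.val_zero, Fin.val_one, Fin.val_two, show ((3 : Fin 5) : ℕ) = 3 from rfl,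
    show ((4 : Fin 5) : ℕ) = 4 from rfl]
  norm_num [_root_.zpow_neg, zpow_one, zpow_ofNat]
  field_simp
  ring

/-- The class form is homogeneous of degree two in `(u, o, R, y)`. -/
lemma classOf_smul (G : Jet) (M : Fin 2 → Jet) (C : Fin 2 → Fin 5 → Jet)
    (r μ s q o R y U₁ U₂ U₃ W₁ W₂ P₂ P₃ P₄ P₅ : ℝ) :
    classOf G M C μ s q (r * o) (r * R) (r * y) (r * U₁) (r * U₂) (r * U₃) (r ^ 2 * W₁)
        (r ^ 2 * W₂) P₂ P₃ P₄ P₅ =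
      r ^ 2 * classOf G M C μ s q o R y U₁ U₂ U₃ W₁ W₂ P₂ P₃ P₄ P₅ := by
  simp only [classOf]
  ring

/-- The top form: the terms quadratic in the third derivatives and the Schur variable. -/
def topOf (G : Jet) (M : Fin 2 → Jet) (y U₁ U₂ W₁ W₂ : ℝ) : ℝ :=
  y * U₁ * G.1 - y ^ 2 * G.1 + (-(M 0).1 * U₁ ^ 2 + (M 0).1 * W₁) +
    (-2 * (M 1).1 * U₁ * U₂ + (M 1).1 * W₂)

/-- The top form is the part of degree two along a ray. -/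
lemma classOf_parallel (G : Jet) (M : Fin 2 → Jet) (C : Fin 2 → Fin 5 → Jet)
    (r μ s q o R y U₁ U₂ U₃ W₁ W₂ P₂ P₃ P₄ P₅ : ℝ) :
    classOf G M C μ s q o R (r * y) (r * U₁) (r * U₂) (r * U₃) (r ^ 2 * W₁) (r ^ 2 * W₂) P₂ P₃ P₄ P₅ +
      classOf G M C μ s q o R (-r * y) (-r * U₁) (-r * U₂) (-r * U₃) (r ^ 2 * W₁) (r ^ 2 * W₂)
        P₂ P₃ P₄ P₅ =
      2 * r ^ 2 * topOf G M y U₁ U₂ W₁ W₂ +
        2 * classOf G M C μ s q o R 0 0 0 0 0 0 P₂ P₃ P₄ P₅ := by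
  simp only [classOf, topOf]
  ring

/-- The class form at the moment `T`: the other eigenvalues are `-μ/3 + r ξ`, the third derivatives
`c₀ + c₁ ξ + c₂ ξ²`. -/
def classBlock (G : Jet) (M : Fin 2 → Jet) (C : Fin 2 → Fin 5 → Jet)
    (μ r T s q c₀ c₁ c₂ o R y : ℝ) : ℝ :=
  let N := momPow (-μ / 3) r T
  let L : ℕ → ℝ := fun j => c₀ * N j 0 + c₁ * N j 1 + c₂ * N j 2
  let S : ℕ → ℝ := fun j => c₀ ^ 2 * N j 0 + 2 * c₀ * c₁ * N j 1 + (c₁ ^ 2 + 2 * c₀ * c₂) * N j 2 +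
    2 * c₁ * c₂ * N j 3 + c₂ ^ 2 * N j 4
  classOf G M C μ s q o R y (L 1 - μ * L 0) (L 2 - μ ^ 2 * L 0) (L 3 - μ ^ 3 * L 0)
    (L 0 ^ 2 + 3 * S 0) (2 * μ * L 0 ^ 2 + (4 * S 1 + 2 * μ * S 0))
    (μ ^ 2 + N 2 0) (μ ^ 3 + N 3 0) (μ ^ 4 + N 4 0) (μ ^ 5 + N 5 0)

/-- The weight `W₁` at the moment `T`. -/
def momWeight (T c₀ c₁ c₂ : ℝ) : ℝ :=
  (3 * c₀ + c₂) ^ 2 + 3 * (3 * c₀ ^ 2 + (c₁ ^ 2 + 2 * c₀ * c₂) + 2 * c₁ * c₂ * T + c₂ ^ 2 / 2)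

/-- The middle Bernstein coefficient of the class form. -/
def classMid (G : Jet) (M : Fin 2 → Jet) (C : Fin 2 → Fin 5 → Jet)
    (μ r s q c₀ c₁ c₂ o R y : ℝ) : ℝ :=
  2 * classBlock G M C μ r 0 s q c₀ c₁ c₂ o R y -
    (classBlock G M C μ r (√6)⁻¹ s q c₀ c₁ c₂ o R y +
      classBlock G M C μ r (-(√6)⁻¹) s q c₀ c₁ c₂ o R y) / 2

/-- The inequalities to be checked at `(s, P = s² + q²)`, with margin `t`: the double node form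
(`r` of either sign), the middle form, the extreme triples, and the two scalar conditions. -/
structure ClassIneq (G : Jet) (M : Fin 2 → Jet) (C : Fin 2 → Fin 5 → Jet) (s q t : ℝ) : Prop where
  node : ∀ μ r c₀ c₁ R y : ℝ, 4 / 3 * μ ^ 2 + r ^ 2 = 1 → 0 < R →
    classBlock G M C μ r (√6)⁻¹ s q c₀ c₁ 0 1 R y +
      t * (momWeight (√6)⁻¹ c₀ c₁ 0 + y ^ 2 + 1) ≤ 0
  mid : ∀ μ r c₀ c₁ c₂ R y : ℝ, 0 ≤ r → 4 / 3 * μ ^ 2 + r ^ 2 = 1 → 0 < R →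
    classMid G M C μ r s q c₀ c₁ c₂ 1 R y + t * (momWeight 0 c₀ c₁ c₂ + y ^ 2 + 1) ≤ 0
  pos : t ≤ G.1
  neg : (M 0).1 + t ≤ 0
  triple₁ : 6 * ((M 0).1 + t) - 2 * √3 * (M 1).1 ≤ 0
  triple₂ : 6 * ((M 0).1 + t) + 2 * √3 * (M 1).1 ≤ 0
  remainder₁ : 13 / 6 * (M 0).1 + 20 / 9 * (M 1).1 + 5 / 21 * G.1 + t ≤ 0
  remainder₂ : 13 / 6 * (M 0).1 - 20 / 9 * (M 1).1 + 5 / 21 * G.1 + t ≤ 0

lemma momPow_scale (ρ m r T : ℝ) : ∀ j i : ℕ,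
    momPow (ρ * m) (ρ * r) T j i = ρ ^ j * momPow m r T j i
  | 0, i => by simp [momPow]
  | j + 1, i => by rw [momPow, momPow, momPow_scale ρ m r T j i, momPow_scale ρ m r T j (i + 1)]; ring

lemma momWeight_eq (T c₀ c₁ c₂ μ r : ℝ) :
    momWeight T c₀ c₁ c₂ =
      (c₀ * momPow (-μ / 3) r T 0 0 + c₁ * momPow (-μ / 3) r T 0 1 +
        c₂ * momPow (-μ / 3) r T 0 2) ^ 2 +
      3 * (c₀ ^ 2 * momPow (-μ / 3) r T 0 0 + 2 * c₀ * c₁ * momPow (-μ / 3) r T 0 1 +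
        (c₁ ^ 2 + 2 * c₀ * c₂) * momPow (-μ / 3) r T 0 2 + 2 * c₁ * c₂ * momPow (-μ / 3) r T 0 3 +
        c₂ ^ 2 * momPow (-μ / 3) r T 0 4) := by
  simp only [momWeight, momPow, mom]
  norm_num
  ring

/-- Raise the value of the first field and lower that of the test coefficient. -/
def pertA (a : ℝ) (A : Fin 2 → Coef) : Fin 2 → Coef :=
  Function.update A 0 ((A 0).1 + a, (A 0).2)

lemma formOf_pert (Φ : Coef) (A : Fin 2 → Coef) (B : Fin 5 → Coef)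
    (a b μ s q y o U₁ U₂ U₃ W₁ W₂ P₂ P₃ P₄ P₅ : ℝ) :
    formOf (Φ.1 + b, Φ.2) (pertA a A) B μ s q y o U₁ U₂ U₃ W₁ W₂ P₂ P₃ P₄ P₅ =
      formOf Φ A B μ s q y o U₁ U₂ U₃ W₁ W₂ P₂ P₃ P₄ P₅ + a * (W₁ + 4 * P₂ * o ^ 2) +
        b * (9 / 4 * o ^ 2 - y ^ 2) := by
  simp only [formOf, pertA, Function.update_self, ne_eq, show (1 : Fin 2) ≠ 0 from by decide,
    not_false_eq_true, Function.update_of_ne]
  ring

lemma momBlock_scale {ρ : ℝ} (hρ : ρ ≠ 0) (t : ℝ) (G : Jet) (M : Fin 2 → Jet)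
    (C : Fin 2 → Fin 5 → Jet) (μ r T s q c₀ c₁ c₂ y : ℝ) :
    momBlock ((coefPhi ρ G).1 - ρ * t, (coefPhi ρ G).2) (pertA (t / ρ) (coefA ρ M)) (coefB ρ C)
        (ρ * μ) (ρ * r) T s q (ρ * c₀) (ρ * c₁) (ρ * c₂) y 1 =
      ρ * (classBlock G M C μ r T s q c₀ c₁ c₂ 1 ρ y +
        t * (momWeight T c₀ c₁ c₂ + y ^ 2 + 4 * (μ ^ 2 + momPow (-μ / 3) r T 2 0) - 9 / 4)) := by
  have hm : -(ρ * μ) / 3 = ρ * (-μ / 3) := by ring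
  have hM : ∀ j i, momPow (-(ρ * μ) / 3) (ρ * r) T j i = ρ ^ j * momPow (-μ / 3) r T j i :=
    fun j i => by rw [hm, momPow_scale]
  simp only [momBlock, classBlock, hM, momWeight_eq T c₀ c₁ c₂ μ r]
  set N := momPow (-μ / 3) r T
  rw [show (coefPhi ρ G).1 - ρ * t = (coefPhi ρ G).1 + -(ρ * t) by ring, formOf_pert]
  set U₁ := c₀ * N 1 0 + c₁ * N 1 1 + c₂ * N 1 2 - μ * (c₀ * N 0 0 + c₁ * N 0 1 + c₂ * N 0 2)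
  set U₂ := c₀ * N 2 0 + c₁ * N 2 1 + c₂ * N 2 2 - μ ^ 2 * (c₀ * N 0 0 + c₁ * N 0 1 + c₂ * N 0 2)
  set U₃ := c₀ * N 3 0 + c₁ * N 3 1 + c₂ * N 3 2 - μ ^ 3 * (c₀ * N 0 0 + c₁ * N 0 1 + c₂ * N 0 2)
  set W₁ := (c₀ * N 0 0 + c₁ * N 0 1 + c₂ * N 0 2) ^ 2 + 3 * (c₀ ^ 2 * N 0 0 + 2 * c₀ * c₁ * N 0 1 +
      (c₁ ^ 2 + 2 * c₀ * c₂) * N 0 2 + 2 * c₁ * c₂ * N 0 3 + c₂ ^ 2 * N 0 4) with hW₁
  set W₂ := 2 * μ * (c₀ * N 0 0 + c₁ * N 0 1 + c₂ * N 0 2) ^ 2 +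
      (4 * (c₀ ^ 2 * N 1 0 + 2 * c₀ * c₁ * N 1 1 + (c₁ ^ 2 + 2 * c₀ * c₂) * N 1 2 +
        2 * c₁ * c₂ * N 1 3 + c₂ ^ 2 * N 1 4) + 2 * μ * (c₀ ^ 2 * N 0 0 + 2 * c₀ * c₁ * N 0 1 +
        (c₁ ^ 2 + 2 * c₀ * c₂) * N 0 2 + 2 * c₁ * c₂ * N 0 3 + c₂ ^ 2 * N 0 4)) with hW₂
  have key := formOf_scale hρ G M C μ s q y U₁ U₂ U₃ W₁ W₂
    (μ ^ 2 + N 2 0) (μ ^ 3 + N 3 0) (μ ^ 4 + N 4 0) (μ ^ 5 + N 5 0)
  have conv : ∀ (X₁ X₂ X₃ Y₁ Y₂ Z₂ Z₃ Z₄ Z₅ : ℝ), X₁ = ρ ^ 2 * U₁ → X₂ = ρ ^ 3 * U₂ →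
      X₃ = ρ ^ 4 * U₃ → Y₁ = ρ ^ 2 * W₁ → Y₂ = ρ ^ 3 * W₂ → Z₂ = ρ ^ 2 * (μ ^ 2 + N 2 0) →
      Z₃ = ρ ^ 3 * (μ ^ 3 + N 3 0) → Z₄ = ρ ^ 4 * (μ ^ 4 + N 4 0) → Z₅ = ρ ^ 5 * (μ ^ 5 + N 5 0) →
      formOf (coefPhi ρ G) (coefA ρ M) (coefB ρ C) (ρ * μ) s q y 1 X₁ X₂ X₃ Y₁ Y₂ Z₂ Z₃ Z₄ Z₅ +
          t / ρ * (Y₁ + 4 * Z₂ * 1 ^ 2) + -(ρ * t) * (9 / 4 * 1 ^ 2 - y ^ 2) =
        ρ * (classOf G M C μ s q 1 ρ y U₁ U₂ U₃ W₁ W₂ (μ ^ 2 + N 2 0) (μ ^ 3 + N 3 0)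
          (μ ^ 4 + N 4 0) (μ ^ 5 + N 5 0) + t * (W₁ + y ^ 2 + 4 * (μ ^ 2 + N 2 0) - 9 / 4)) := by
    intro X₁ X₂ X₃ Y₁ Y₂ Z₂ Z₃ Z₄ Z₅ a b c d e f g h i
    subst a b c d e f g h i
    rw [key]
    field_simp
    ring
  exact conv _ _ _ _ _ _ _ _ _ (by simp only [U₁]; ring) (by simp only [U₂]; ring)
    (by simp only [U₃]; ring) (by simp only [hW₁]; ring) (by simp only [hW₂]; ring) (by ring)
    (by ring) (by ring) (by ring)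

/-- The scalar inequalities at `ρ > 0` follow from those of the class. -/
theorem twoPoint_of_class {G : Jet} {M : Fin 2 → Jet} {C : Fin 2 → Fin 5 → Jet} {s q t ρ : ℝ}
    (h : ClassIneq G M C s q t) (hρ : 0 < ρ) :
    TwoPointIneq ((coefPhi ρ G).1 - ρ * t, (coefPhi ρ G).2) (pertA (t / ρ) (coefA ρ M)) (coefB ρ C)
      (ρ ^ 2) s q (3 / 4 * t * ρ) := by
  have hQ : √(3 * ρ ^ 2) = √3 * ρ := by
    rw [Real.sqrt_mul (by norm_num), Real.sqrt_sq hρ.le]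
  have hP : ∀ μ r T : ℝ, 4 / 3 * μ ^ 2 + r ^ 2 = 1 → μ ^ 2 + momPow (-μ / 3) r T 2 0 = 1 :=
    fun μ r T h => by simp only [momPow, mom]; norm_num; linarith
  refine twoPointIneq_mk ?_ ?_ ?_ (fun μ r c₀ c₁ y hμ => ?_) fun μ r c₀ c₁ c₂ y hr hμ => ?_
  · simp only [coefPhi, powCoef, zpow_one]
    nlinarith [mul_le_mul_of_nonneg_left h.pos hρ.le]
  · simp only [pertA, coefA, powCoef, Function.update_self, ne_eq, show (1 : Fin 2) ≠ 0 from by decide,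
      not_false_eq_true, Function.update_of_ne, hQ]
    norm_num [_root_.zpow_neg, zpow_ofNat]
    field_simp
    linarith [h.triple₁]
  · simp only [pertA, coefA, powCoef, Function.update_self, ne_eq, show (1 : Fin 2) ≠ 0 from by decide,
      not_false_eq_true, Function.update_of_ne, hQ]
    norm_num [_root_.zpow_neg, zpow_ofNat]
    field_simp
    linarith [h.triple₂]
  · have hμ' : 4 / 3 * (μ / ρ) ^ 2 + (r / ρ) ^ 2 = 1 := by field_simp; linarith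
    have e := momBlock_scale hρ.ne' t G M C (μ / ρ) (r / ρ) (√6)⁻¹ s q (c₀ / ρ) (c₁ / ρ) 0 y
    simp only [mul_div_cancel₀ _ hρ.ne', mul_zero] at e
    rw [e, hP _ _ _ hμ', mul_comm (3 / 4 * t) ρ]
    refine mul_le_mul_of_nonneg_left ?_ hρ.le
    linarith [h.node _ _ (c₀ / ρ) (c₁ / ρ) ρ y hμ' hρ]
  · have hμ' : 4 / 3 * (μ / ρ) ^ 2 + (r / ρ) ^ 2 = 1 := by field_simp; linarith
    have e := fun T => momBlock_scale hρ.ne' t G M C (μ / ρ) (r / ρ) T s q (c₀ / ρ) (c₁ / ρ)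
      (c₂ / ρ) y
    simp only [mul_div_cancel₀ _ hρ.ne'] at e
    have hw : (momWeight (√6)⁻¹ (c₀ / ρ) (c₁ / ρ) (c₂ / ρ) +
        momWeight (-(√6)⁻¹) (c₀ / ρ) (c₁ / ρ) (c₂ / ρ)) / 2 =
          momWeight 0 (c₀ / ρ) (c₁ / ρ) (c₂ / ρ) := by
      simp only [momWeight]; ring
    have hm := h.mid _ _ (c₀ / ρ) (c₁ / ρ) (c₂ / ρ) ρ y (div_nonneg hr hρ.le) hμ' hρ
    simp only [classMid] at hm
    simp only [midBlock, e, hP _ _ _ hμ']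
    have := mul_le_mul_of_nonneg_left hm hρ.le
    simp only [momWeight] at this ⊢
    linarith

end

end Vale.Agent.P098.Cert
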