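import Vale.Agent.P098.Cert.Scale
import Vale.Agent.P098.Cert.Vector

/-!
P098, substitution for the positivity checker.  With a constant test coefficient `g` the variable
`y` is eliminated with a constant `κ ≥ g² / (4 (g - t))`; the third derivatives are scaled by `q`,
so that only `σ = q²` occurs; the double node configurations (`6 a² + 4 μ² / 3 = 1`, `r = √6 a`)
and the half conic `0 ≤ r` of the middle configurations get rational charts on `[0, 1]`.  What is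
left are polynomial forms on the cube.
-/

open Filter Topology

namespace Vale.Agent.P098.Cert

open Reduce

noncomputable section

/-- The class form without its terms in `y`, in terms of the scaled moments, `σ = q²`. -/
def redOf (g : ℝ) (M : Fin 2 → Jet) (C : Fin 2 → Fin 5 → Jet)
    (μ s σ o R U₁ U₂ W₁ W₂ P₂ P₃ P₄ : ℝ) : ℝ :=
  let d : ℝ → Jet → ℝ := fun e X => e * X.1 * U₁ + (X.2.1 * o + 2 * μ * X.2.2 * R)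
  let b : Fin 5 → ℝ := fun j => (C 0 j).1 * o + (C 1 j).1 * R
  let db : Fin 5 → ℝ := fun j =>
    o * d (1 - (j : ℕ)) (C 0 j) + R * d (2 - (j : ℕ)) (C 1 j)
  σ * ((d (-1) (M 0) * U₁ + (M 0).1 * W₁) + (d (-2) (M 1) * U₂ + (M 1).1 * W₂) +
      (db 0 + μ * db 1 + (μ ^ 2 * db 2 + b 2 * U₁) + (μ ^ 3 * db 3 + b 3 * (U₂ + μ * U₁)))) +
    (o ^ 2 * (9 / 4 * g + 4 * (M 0).1 * P₂ + 4 * (M 1).1 * P₃) - 4 * s * b 0 * o + b 1 * R * P₂ +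
      b 2 * (R * P₃ - s * o * P₂) + b 3 * (R * P₄ - s * o * P₃))

/-- The gain `κ` from eliminating `y`, and the margin. -/
def elimOf (κ t σ o U₁ W₁ : ℝ) : ℝ :=
  σ * κ * U₁ ^ 2 + t * (σ * W₁ + o ^ 2)

lemma classOf_red {C : Fin 2 → Fin 5 → Jet} (hC : ∀ e, C e 4 = 0) (g : ℝ) (M : Fin 2 → Jet)
    (μ s q o R y U₁ U₂ U₃ W₁ W₂ P₂ P₃ P₄ P₅ : ℝ) :
    classOf (g, 0, 0) M C μ s q o R y (q * U₁) (q * U₂) U₃ (q ^ 2 * W₁) (q ^ 2 * W₂) P₂ P₃ P₄ P₅ =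
      y * g * (q * U₁) - y ^ 2 * g + redOf g M C μ s (q ^ 2) o R U₁ U₂ W₁ W₂ P₂ P₃ P₄ := by
  simp only [classOf, redOf, hC, Prod.fst_zero, Prod.snd_zero, Fin.val_zero, Fin.val_one,
    Fin.val_two, show ((3 : Fin 5) : ℕ) = 3 from rfl, show ((4 : Fin 5) : ℕ) = 4 from rfl]
  push_cast
  ring

lemma elim_le {g κ t : ℝ} (hg : t < g) (hκ : g ^ 2 ≤ κ * (4 * (g - t))) (q o y U₁ W₁ : ℝ) :
    y * g * (q * U₁) - y ^ 2 * g + t * (q ^ 2 * W₁ + y ^ 2 + o ^ 2) ≤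
      elimOf κ t (q ^ 2) o U₁ W₁ := by
  have h : 0 < g - t := sub_pos.2 hg
  have h1 := mul_nonneg h.le (sq_nonneg (y - g * (q * U₁) / (2 * (g - t))))
  have h2 : (g - t) * (y - g * (q * U₁) / (2 * (g - t))) ^ 2 =
      q ^ 2 * (g ^ 2 / (4 * (g - t))) * U₁ ^ 2 + (g - t) * y ^ 2 - y * g * (q * U₁) := by
    field_simp
    ring
  have h3 : g ^ 2 / (4 * (g - t)) ≤ κ := (div_le_iff₀ (by linarith)).2 hκ
  have h4 := mul_le_mul_of_nonneg_left h3 (mul_nonneg (sq_nonneg q) (sq_nonneg U₁))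
  rw [elimOf]
  linarith

/-- The double node form: the others are `-μ/3 + a η`, `η ∈ {2, -1, -1}`, the third derivatives
`q (w₀ + w₁ η)`. -/
def nodeRed (g κ t : ℝ) (M : Fin 2 → Jet) (C : Fin 2 → Fin 5 → Jet)
    (μ a s σ w₀ w₁ o R : ℝ) : ℝ :=
  let m := -μ / 3
  let N₂₀ := 3 * m ^ 2 + 6 * a ^ 2
  let N₂₁ := 12 * a * m + 6 * a ^ 2
  let N₃₀ := m * N₂₀ + a * N₂₁
  let N₂₂ := m * (6 * m + 6 * a) + a * (6 * m + 18 * a)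
  let N₄₀ := m * N₃₀ + a * (m * N₂₁ + a * N₂₂)
  let L₀ := 3 * w₀
  let U₁ := 3 * m * w₀ + 6 * a * w₁ - μ * L₀
  let U₂ := N₂₀ * w₀ + N₂₁ * w₁ - μ ^ 2 * L₀
  let S₀ := 3 * w₀ ^ 2 + 6 * w₁ ^ 2
  let S₁ := 3 * m * w₀ ^ 2 + 12 * a * w₀ * w₁ + (6 * m + 6 * a) * w₁ ^ 2
  let W₁ := L₀ ^ 2 + 3 * S₀
  redOf g M C μ s σ o R U₁ U₂ W₁ (2 * μ * L₀ ^ 2 + (4 * S₁ + 2 * μ * S₀))
      (μ ^ 2 + N₂₀) (μ ^ 3 + N₃₀) (μ ^ 4 + N₄₀) +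
    elimOf κ t σ o U₁ W₁

/-- The middle form: the third derivatives are `q (w₀ + w₁ ξ + w₂ ξ²)`. -/
def midRed (g κ t : ℝ) (M : Fin 2 → Jet) (C : Fin 2 → Fin 5 → Jet)
    (μ r s σ w₀ w₁ w₂ o R : ℝ) : ℝ :=
  let m := -μ / 3
  let N₂₀ := 3 * m ^ 2 + r ^ 2
  let N₃₀ := 3 * m ^ 3 + 3 * m * r ^ 2
  let N₄₀ := 3 * m ^ 4 + 6 * m ^ 2 * r ^ 2 + r ^ 4 / 2
  let L₀ := 3 * w₀ + w₂
  let U₁ := 3 * m * w₀ + r * w₁ + m * w₂ - μ * L₀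
  let U₂ := N₂₀ * w₀ + 2 * m * r * w₁ + (m ^ 2 + r ^ 2 / 2) * w₂ - μ ^ 2 * L₀
  let S₀ := 3 * w₀ ^ 2 + w₁ ^ 2 + 2 * w₀ * w₂ + w₂ ^ 2 / 2
  let S₁ := 3 * m * w₀ ^ 2 + 2 * r * w₀ * w₁ + m * (w₁ ^ 2 + 2 * w₀ * w₂) + r * w₁ * w₂ +
    m * w₂ ^ 2 / 2
  let W₁ := L₀ ^ 2 + 3 * S₀
  redOf g M C μ s σ o R U₁ U₂ W₁ (2 * μ * L₀ ^ 2 + (4 * S₁ + 2 * μ * S₀))
      (μ ^ 2 + N₂₀) (μ ^ 3 + N₃₀) (μ ^ 4 + N₄₀) +
    σ * (r ^ 2 / 6 * w₂ * ((M 0).1 * w₂ + 2 * (M 1).1 * (r * w₁ + 2 * m * w₂))) +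
    elimOf κ t σ o U₁ W₁

variable {C : Fin 2 → Fin 5 → Jet} {M : Fin 2 → Jet} {g κ t : ℝ}

lemma node_le (hC : ∀ e, C e 4 = 0) (hg : t < g) (hκ : g ^ 2 ≤ κ * (4 * (g - t)))
    (μ a s q w₀ w₁ R y : ℝ) :
    classBlock (g, 0, 0) M C μ (√6 * a) (√6)⁻¹ s q (q * w₀) (√6 * (q * w₁)) 0 1 R y +
        t * (momWeight (√6)⁻¹ (q * w₀) (√6 * (q * w₁)) 0 + y ^ 2 + 1) ≤
      nodeRed g κ t M C μ a s (q ^ 2) w₀ w₁ 1 R := by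
  set k : ℝ := √6 with hk
  have h0 : k ≠ 0 := (Real.sqrt_pos.2 (by norm_num : (0 : ℝ) < 6)).ne'
  have k2 : k ^ 2 = 6 := Real.sq_sqrt (by norm_num)
  have k3 : k ^ 3 = 6 * k := by rw [pow_succ, k2]
  have k4 : k ^ 4 = 36 := by rw [pow_succ, k3, mul_assoc, ← sq, k2]; norm_num
  have hi : k⁻¹ = k / 6 := by field_simp; exact k2.symm
  set m := -μ / 3
  set N₂₀ := 3 * m ^ 2 + 6 * a ^ 2
  set N₂₁ := 12 * a * m + 6 * a ^ 2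
  set L₀ := 3 * w₀
  set U₁ := 3 * m * w₀ + 6 * a * w₁ - μ * L₀
  set U₂ := N₂₀ * w₀ + N₂₁ * w₁ - μ ^ 2 * L₀
  set S₀ := 3 * w₀ ^ 2 + 6 * w₁ ^ 2
  set S₁ := 3 * m * w₀ ^ 2 + 12 * a * w₀ * w₁ + (6 * m + 6 * a) * w₁ ^ 2
  have hW : momWeight k⁻¹ (q * w₀) (k * (q * w₁)) 0 = q ^ 2 * (L₀ ^ 2 + 3 * S₀) := by
    simp only [momWeight, L₀, S₀]; ring_nf; simp only [k2]; ring
  rw [hW]
  simp only [classBlock, momPow, mom]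
  norm_num
  rw [hi]
  have key := classOf_red hC g M μ s q 1 R y U₁ U₂
  have e := elim_le hg hκ q 1 y U₁ (L₀ ^ 2 + 3 * S₀)
  refine le_trans (le_of_eq ?_) ((add_le_add_iff_left
    (redOf g M C μ s (q ^ 2) 1 R U₁ U₂ (L₀ ^ 2 + 3 * S₀) (2 * μ * L₀ ^ 2 + (4 * S₁ + 2 * μ * S₀))
      (μ ^ 2 + N₂₀) (μ ^ 3 + (m * N₂₀ + a * N₂₁))
      (μ ^ 4 + (m * (m * N₂₀ + a * N₂₁) +
        a * (m * N₂₁ + a * (m * (6 * m + 6 * a) + a * (6 * m + 18 * a))))))).2 e)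
  have conv : ∀ X₁ X₂ X₃ Y₁ Y₂ Z₂ Z₃ Z₄ Z₅ : ℝ, X₁ = q * U₁ → X₂ = q * U₂ →
      Y₁ = q ^ 2 * (L₀ ^ 2 + 3 * S₀) → Y₂ = q ^ 2 * (2 * μ * L₀ ^ 2 + (4 * S₁ + 2 * μ * S₀)) →
      Z₂ = μ ^ 2 + N₂₀ → Z₃ = μ ^ 3 + (m * N₂₀ + a * N₂₁) →
      Z₄ = μ ^ 4 + (m * (m * N₂₀ + a * N₂₁) +
        a * (m * N₂₁ + a * (m * (6 * m + 6 * a) + a * (6 * m + 18 * a)))) →
      classOf (g, 0, 0) M C μ s q 1 R y X₁ X₂ X₃ Y₁ Y₂ Z₂ Z₃ Z₄ Z₅ +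
          t * (q ^ 2 * (L₀ ^ 2 + 3 * S₀) + y ^ 2 + 1) =
        redOf g M C μ s (q ^ 2) 1 R U₁ U₂ (L₀ ^ 2 + 3 * S₀)
            (2 * μ * L₀ ^ 2 + (4 * S₁ + 2 * μ * S₀)) (μ ^ 2 + N₂₀) (μ ^ 3 + (m * N₂₀ + a * N₂₁))
            (μ ^ 4 + (m * (m * N₂₀ + a * N₂₁) +
              a * (m * N₂₁ + a * (m * (6 * m + 6 * a) + a * (6 * m + 18 * a))))) +
          (y * g * (q * U₁) - y ^ 2 * g + t * (q ^ 2 * (L₀ ^ 2 + 3 * S₀) + y ^ 2 + 1 ^ 2)) := by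
    intro X₁ X₂ X₃ Y₁ Y₂ Z₂ Z₃ Z₄ Z₅ a₁ a₂ a₃ a₄ a₅ a₆ a₇
    subst a₁ a₂ a₃ a₄ a₅ a₆ a₇
    rw [key]
    ring
  refine conv _ _ _ _ _ _ _ _ _ ?_ ?_ ?_ ?_ ?_ ?_ ?_ <;>
    simp only [U₁, U₂, L₀, S₀, S₁, N₂₀, N₂₁, m] <;> ring_nf <;> simp only [k2, k4] <;> ring

lemma mid_le (hC : ∀ e, C e 4 = 0) (hg : t < g) (hκ : g ^ 2 ≤ κ * (4 * (g - t)))
    (μ r s q w₀ w₁ w₂ R y : ℝ) :
    classMid (g, 0, 0) M C μ r s q (q * w₀) (q * w₁) (q * w₂) 1 R y +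
        t * (momWeight 0 (q * w₀) (q * w₁) (q * w₂) + y ^ 2 + 1) ≤
      midRed g κ t M C μ r s (q ^ 2) w₀ w₁ w₂ 1 R := by
  set h : ℝ := (√6)⁻¹ with hh
  have h2 : h ^ 2 = 1 / 6 := by rw [hh, inv_pow, Real.sq_sqrt (by norm_num)]; norm_num
  set m := -μ / 3
  set L₀ := 3 * w₀ + w₂
  set U₁ := 3 * m * w₀ + r * w₁ + m * w₂ - μ * L₀
  set U₂ := (3 * m ^ 2 + r ^ 2) * w₀ + 2 * m * r * w₁ + (m ^ 2 + r ^ 2 / 2) * w₂ - μ ^ 2 * L₀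
  set S₀ := 3 * w₀ ^ 2 + w₁ ^ 2 + 2 * w₀ * w₂ + w₂ ^ 2 / 2
  set S₁ := 3 * m * w₀ ^ 2 + 2 * r * w₀ * w₁ + m * (w₁ ^ 2 + 2 * w₀ * w₂) + r * w₁ * w₂ +
    m * w₂ ^ 2 / 2
  have hW : momWeight 0 (q * w₀) (q * w₁) (q * w₂) = q ^ 2 * (L₀ ^ 2 + 3 * S₀) := by
    simp only [momWeight, L₀, S₀]; ring
  rw [hW]
  refine le_trans (le_of_eq ?_) ((add_le_add_iff_left
    (redOf g M C μ s (q ^ 2) 1 R U₁ U₂ (L₀ ^ 2 + 3 * S₀) (2 * μ * L₀ ^ 2 + (4 * S₁ + 2 * μ * S₀))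
      (μ ^ 2 + (3 * m ^ 2 + r ^ 2)) (μ ^ 3 + (3 * m ^ 3 + 3 * m * r ^ 2))
      (μ ^ 4 + (3 * m ^ 4 + 6 * m ^ 2 * r ^ 2 + r ^ 4 / 2)) +
    q ^ 2 * (r ^ 2 / 6 * w₂ * ((M 0).1 * w₂ + 2 * (M 1).1 * (r * w₁ + 2 * m * w₂))))).2
      (elim_le hg hκ q 1 y U₁ (L₀ ^ 2 + 3 * S₀)))
  simp only [classMid, classBlock, classOf, redOf, hC, momPow, mom, Prod.fst_zero, Prod.snd_zero,
    Fin.val_zero, Fin.val_one, Fin.val_two, show ((3 : Fin 5) : ℕ) = 3 from rfl,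
    show ((4 : Fin 5) : ℕ) = 4 from rfl, U₁, U₂, L₀, S₀, S₁, m, ← hh]
  norm_num
  ring_nf
  simp only [h2]
  ring

/-- Continuity reduces a closed condition to the open one. -/
lemma le_zero_of_approach {f : ℝ → ℝ} (hf : Continuous f) (h : ∀ δ ∈ Set.Ioo (0 : ℝ) 1, f δ ≤ 0) :
    f 0 ≤ 0 :=
  le_of_tendsto ((hf.tendsto 0).mono_left (nhdsWithin_le_nhds (s := Set.Ioi 0)))
    (Filter.eventually_of_mem (Ioo_mem_nhdsGT one_pos) h)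

lemma approach_mem {s q δ : ℝ} (hs : 0 ≤ s) (hq : 0 ≤ q) (hsq : s ^ 2 + q ^ 2 ≤ 1)
    (hδ : δ ∈ Set.Ioo (0 : ℝ) 1) :
    0 ≤ (1 - δ) * s ∧ 0 < (1 - δ) * q + δ ∧ ((1 - δ) * s) ^ 2 + ((1 - δ) * q + δ) ^ 2 ≤ 1 := by
  obtain ⟨h0, h1⟩ := hδ
  refine ⟨mul_nonneg (by linarith) hs, by nlinarith, ?_⟩
  have hq1 : q ≤ 1 := by nlinarith
  nlinarith [mul_nonneg (mul_nonneg h0.le (sub_nonneg.2 h1.le)) (sub_nonneg.2 hq1),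
    mul_le_mul_of_nonneg_left hsq (sq_nonneg (1 - δ))]

/-- A point of the quarter disc with `q > 0` in the square coordinates. -/
lemma exists_square_coord {s q : ℝ} (hs : 0 ≤ s) (hq : 0 < q) (hsq : s ^ 2 + q ^ 2 ≤ 1) :
    ∃ v ∈ Set.Icc (0 : ℝ) 1, s ∈ Set.Icc (0 : ℝ) 1 ∧ q ^ 2 = v * (1 - s ^ 2) := by
  have h : 0 < 1 - s ^ 2 := by nlinarith
  exact ⟨q ^ 2 / (1 - s ^ 2), ⟨by positivity, (div_le_one h).2 (by linarith)⟩,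
    ⟨hs, by nlinarith⟩, (div_mul_cancel₀ _ h.ne').symm⟩

/-- The node chart: a point of the line through `(1/2, -1/3)`. -/
def chartP (τ : ℝ) : ℝ := 4 - 2 * τ

/-- The node chart: a point of the line through `(1/2, -1/3)`. -/
def chartW (τ : ℝ) : ℝ := 5 - 14 * τ

/-- The denominator of the node chart. -/
def chartDen (τ : ℝ) : ℝ := 4 * chartW τ ^ 2 + 18 * chartP τ ^ 2

/-- The chart of the node configurations: the eigenvalue. -/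
def chartMu (τ : ℝ) : ℝ :=
  (chartDen τ / 2 + (12 * chartP τ - 4 * chartW τ) * chartW τ) / chartDen τ

/-- The chart of the node configurations: the spread, of either sign. -/
def chartA (τ : ℝ) : ℝ :=
  (-chartDen τ / 3 + (12 * chartP τ - 4 * chartW τ) * chartP τ) / chartDen τ

/-- The parameter of the middle chart. -/
def midK (τ : ℝ) : ℝ := 7 / 8 * (2 * τ - 1)

/-- The denominator of the middle chart. -/
def midDen (τ : ℝ) : ℝ := 3 + 4 * midK τ ^ 2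

/-- The chart of the middle configurations: the eigenvalue. -/
def midMu (τ : ℝ) : ℝ := 6 * midK τ / midDen τ

/-- The chart of the middle configurations: the spread. -/
def midR (τ : ℝ) : ℝ := (3 - 4 * midK τ ^ 2) / midDen τ

lemma chartDen_pos (τ : ℝ) : 0 < chartDen τ := by
  unfold chartDen chartP chartW
  nlinarith [sq_nonneg (856 * τ - 424)]

lemma midDen_pos (τ : ℝ) : 0 < midDen τ := by unfold midDen; positivity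

/-- The chart covers the half `0 ≤ a` of the conic. -/
lemma exists_chart {μ a : ℝ} (ha : 0 ≤ a) (h : 4 * μ ^ 2 + 18 * a ^ 2 = 3) :
    ∃ τ ∈ Set.Icc (0 : ℝ) 1, chartMu τ = μ ∧ chartA τ = a := by
  have hμ : μ ^ 2 ≤ 3 / 4 := by nlinarith
  have hμ' : |μ| ≤ 867 / 1000 := abs_le_of_sq_le_sq (by linarith) (by norm_num)
  rw [abs_le] at hμ'
  set L₁ := 5 * a - 4 * μ + 11 / 3 with hL₁
  set L₂ := 14 * a - 2 * μ + 17 / 3 with hL₂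
  have hpos : 0 < L₂ := by linarith
  refine ⟨L₁ / L₂, ⟨div_nonneg (by linarith) hpos.le, ?_⟩, ?_⟩
  · rw [div_le_iff₀ hpos]; linarith
  -- the line through `(1/2, -1/3)` and `(μ, a)` has direction `(chartW, chartP)`
  have hd := chartDen_pos (L₁ / L₂)
  have hw : chartW (L₁ / L₂) = 46 / L₂ * (μ - 1 / 2) := by
    rw [chartW]; field_simp; rw [hL₁, hL₂]; ring
  have hp : chartP (L₁ / L₂) = 46 / L₂ * (a + 1 / 3) := by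
    rw [chartP]; field_simp; rw [hL₁, hL₂]; ring
  have hD : chartDen (L₁ / L₂) =
      46 / L₂ * (12 * chartP (L₁ / L₂) - 4 * chartW (L₁ / L₂)) := by
    rw [chartDen, hw, hp]; linear_combination (46 / L₂) ^ 2 * h
  constructor
  · rw [chartMu, div_eq_iff hd.ne', hD, hw, hp]; ring
  · rw [chartA, div_eq_iff hd.ne', hD, hw, hp]; ring

/-- The chart covers the half `0 ≤ r` of the conic. -/
lemma exists_midChart {μ r : ℝ} (hr : 0 ≤ r) (h : 4 / 3 * μ ^ 2 + r ^ 2 = 1) :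
    ∃ τ ∈ Set.Icc (0 : ℝ) 1, midMu τ = μ ∧ midR τ = r := by
  have h1 : 0 < 1 + r := by linarith
  have hk : |μ / (1 + r)| ≤ 7 / 8 := by
    rw [abs_div, abs_of_pos h1, div_le_iff₀ h1]
    exact abs_le_of_sq_le_sq (by nlinarith) (by linarith)
  rw [abs_le] at hk
  refine ⟨(8 / 7 * (μ / (1 + r)) + 1) / 2, ⟨by linarith, by linarith⟩, ?_⟩
  have e : midK ((8 / 7 * (μ / (1 + r)) + 1) / 2) = μ / (1 + r) := by rw [midK]; ring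
  have d : 3 + 4 * (μ / (1 + r)) ^ 2 = 6 / (1 + r) := by
    field_simp
    linear_combination 3 * h
  rw [midMu, midR, midDen, e, d]
  constructor
  · field_simp
  · field_simp
    linear_combination (-3 : ℝ) * h

section Main

variable {G κ : ℝ} {Mf : Fin 2 → ℝ × ℝ → Jet} {Cf : Fin 2 → Fin 5 → ℝ × ℝ → Jet}
  (hM : ∀ m, Continuous (Mf m)) (hC : ∀ e j, Continuous (Cf e j)) (hC4 : ∀ e p, Cf e 4 p = 0)

include hM hC hC4 in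
/-- `ClassIneq.node` from the polynomial forms on the cube. -/
theorem node_of_red (hg : t < G) (hκ : G ^ 2 ≤ κ * (4 * (G - t)))
    (h : ∀ s v τ : ℝ, s ∈ Set.Icc (0 : ℝ) 1 → v ∈ Set.Icc (0 : ℝ) 1 → τ ∈ Set.Icc (0 : ℝ) 1 →
      ∀ w₀ w₁ o R : ℝ, 0 ≤ o → 0 ≤ R →
        nodeRed G κ t (fun m => Mf m (s, s ^ 2 + v * (1 - s ^ 2)))
            (fun e j => Cf e j (s, s ^ 2 + v * (1 - s ^ 2))) (chartMu τ) (chartA τ) s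
            (v * (1 - s ^ 2)) w₀ w₁ o R ≤ 0 ∧
          nodeRed G κ t (fun m => Mf m (s, s ^ 2 + v * (1 - s ^ 2)))
            (fun e j => Cf e j (s, s ^ 2 + v * (1 - s ^ 2))) (chartMu τ) (-chartA τ) s
            (v * (1 - s ^ 2)) w₀ w₁ o R ≤ 0)
    {s q : ℝ} (hs : 0 ≤ s) (hq : 0 ≤ q) (hsq : s ^ 2 + q ^ 2 ≤ 1) (μ r c₀ c₁ R y : ℝ)
    (hμ : 4 / 3 * μ ^ 2 + r ^ 2 = 1) (hR : 0 < R) :
    classBlock (G, 0, 0) (fun m => Mf m (s, s ^ 2 + q ^ 2)) (fun e j => Cf e j (s, s ^ 2 + q ^ 2))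
        μ r (√6)⁻¹ s q c₀ c₁ 0 1 R y +
      t * (momWeight (√6)⁻¹ c₀ c₁ 0 + y ^ 2 + 1) ≤ 0 := by
  have hk : (√6 : ℝ) ≠ 0 := (Real.sqrt_pos.2 (by norm_num : (0 : ℝ) < 6)).ne'
  have hk2 : (√6 : ℝ) ^ 2 = 6 := Real.sq_sqrt (by norm_num)
  obtain ⟨τ, hτ, e1, e2⟩ := exists_chart (μ := μ) (a := |r / √6|) (abs_nonneg _) (by
    rw [sq_abs, div_pow, hk2]; linarith)
  let f : ℝ × ℝ → ℝ := fun z =>
    classBlock (G, 0, 0) (fun m => Mf m (z.1, z.1 ^ 2 + z.2 ^ 2))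
        (fun e j => Cf e j (z.1, z.1 ^ 2 + z.2 ^ 2)) μ r (√6)⁻¹ z.1 z.2 c₀ c₁ 0 1 R y +
      t * (momWeight (√6)⁻¹ c₀ c₁ 0 + y ^ 2 + 1)
  have hf : Continuous f := by
    simp only [f, classBlock, classOf]
    fun_prop
  have hpos : ∀ s q, 0 ≤ s → 0 < q → s ^ 2 + q ^ 2 ≤ 1 → f (s, q) ≤ 0 := by
    intro s q hs hq hsq
    obtain ⟨v, hv, hs1, hvq⟩ := exists_square_coord hs hq hsq
    have hP : s ^ 2 + q ^ 2 = s ^ 2 + v * (1 - s ^ 2) := by rw [hvq]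
    have hn := node_le (M := fun m => Mf m (s, s ^ 2 + q ^ 2))
      (C := fun e j => Cf e j (s, s ^ 2 + q ^ 2)) (fun e => hC4 e _) hg hκ μ (r / √6) s q (c₀ / q)
      (c₁ / (√6 * q)) R y
    have x0 : q * (c₀ / q) = c₀ := mul_div_cancel₀ _ hq.ne'
    have x1 : √6 * (q * (c₁ / (√6 * q))) = c₁ := by field_simp
    rw [mul_div_cancel₀ _ hk, x0, x1, hP] at hn
    simp only [f]
    rw [hP]
    refine hn.trans ?_
    rw [hvq]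
    obtain ⟨d1, d2⟩ := h s v τ hs1 hv hτ (c₀ / q) (c₁ / (√6 * q)) 1 R zero_le_one hR.le
    rw [e1, e2] at d1 d2
    rcases le_total 0 (r / √6) with hr | hr
    · rwa [abs_of_nonneg hr] at d1
    · rwa [abs_of_nonpos hr, neg_neg] at d2
  have := le_zero_of_approach (f := fun δ => f ((1 - δ) * s, (1 - δ) * q + δ))
    (hf.comp (by fun_prop)) fun δ hδ => by
      obtain ⟨a, b, c⟩ := approach_mem hs hq hsq hδ
      exact hpos _ _ a b c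
  simpa [f] using this

include hM hC hC4 in
/-- `ClassIneq.mid` from the polynomial form on the cube. -/
theorem mid_of_red (hg : t < G) (hκ : G ^ 2 ≤ κ * (4 * (G - t)))
    (h : ∀ s v τ : ℝ, s ∈ Set.Icc (0 : ℝ) 1 → v ∈ Set.Icc (0 : ℝ) 1 → τ ∈ Set.Icc (0 : ℝ) 1 →
      ∀ w₀ w₁ w₂ o R : ℝ, 0 ≤ o → 0 ≤ R →
        midRed G κ t (fun m => Mf m (s, s ^ 2 + v * (1 - s ^ 2)))
          (fun e j => Cf e j (s, s ^ 2 + v * (1 - s ^ 2))) (midMu τ) (midR τ) s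
          (v * (1 - s ^ 2)) w₀ w₁ w₂ o R ≤ 0)
    {s q : ℝ} (hs : 0 ≤ s) (hq : 0 ≤ q) (hsq : s ^ 2 + q ^ 2 ≤ 1) (μ r c₀ c₁ c₂ R y : ℝ)
    (hr : 0 ≤ r) (hμ : 4 / 3 * μ ^ 2 + r ^ 2 = 1) (hR : 0 < R) :
    classMid (G, 0, 0) (fun m => Mf m (s, s ^ 2 + q ^ 2)) (fun e j => Cf e j (s, s ^ 2 + q ^ 2))
        μ r s q c₀ c₁ c₂ 1 R y +
      t * (momWeight 0 c₀ c₁ c₂ + y ^ 2 + 1) ≤ 0 := by
  obtain ⟨τ, hτ, e1, e2⟩ := exists_midChart hr hμ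
  let f : ℝ × ℝ → ℝ := fun z =>
    classMid (G, 0, 0) (fun m => Mf m (z.1, z.1 ^ 2 + z.2 ^ 2))
        (fun e j => Cf e j (z.1, z.1 ^ 2 + z.2 ^ 2)) μ r z.1 z.2 c₀ c₁ c₂ 1 R y +
      t * (momWeight 0 c₀ c₁ c₂ + y ^ 2 + 1)
  have hf : Continuous f := by
    simp only [f, classMid, classBlock, classOf]
    fun_prop
  have hpos : ∀ s q, 0 ≤ s → 0 < q → s ^ 2 + q ^ 2 ≤ 1 → f (s, q) ≤ 0 := by
    intro s q hs hq hsq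
    obtain ⟨v, hv, hs1, hvq⟩ := exists_square_coord hs hq hsq
    have hP : s ^ 2 + q ^ 2 = s ^ 2 + v * (1 - s ^ 2) := by rw [hvq]
    have hn := mid_le (M := fun m => Mf m (s, s ^ 2 + q ^ 2))
      (C := fun e j => Cf e j (s, s ^ 2 + q ^ 2)) (fun e => hC4 e _) hg hκ μ r s q (c₀ / q)
      (c₁ / q) (c₂ / q) R y
    rw [mul_div_cancel₀ _ hq.ne', mul_div_cancel₀ _ hq.ne', mul_div_cancel₀ _ hq.ne', hP] at hn
    simp only [f]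
    rw [hP]
    refine hn.trans ?_
    rw [hvq]
    have d := h s v τ hs1 hv hτ (c₀ / q) (c₁ / q) (c₂ / q) 1 R zero_le_one hR.le
    rwa [e1, e2] at d
  have := le_zero_of_approach (f := fun δ => f ((1 - δ) * s, (1 - δ) * q + δ))
    (hf.comp (by fun_prop)) fun δ hδ => by
      obtain ⟨a, b, c⟩ := approach_mem hs hq hsq hδ
      exact hpos _ _ a b c
  simpa [f] using this

end Main

section Vec

lemma continuous_jetOf {g : ℝ × ℝ → ℝ} (hg : ContDiff ℝ 2 g) : Continuous (jetOf g) := by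
  have hd := hg.continuous_fderiv (by norm_num)
  exact hg.continuous.prodMk ((hd.clm_apply continuous_const).prodMk (hd.clm_apply continuous_const))

lemma vecC_four (e : Fin 2) (p : ℝ × ℝ) : jetC vecC p e 4 = 0 := by
  obtain ⟨s, P⟩ := p
  fin_cases e <;> simp [jetC, vecC, jetOf_quad, quad]

lemma jetG_vecG (p : ℝ × ℝ) : jetG vecG p = (1 / 4, 0, 0) := by
  obtain ⟨s, P⟩ := p
  simp [jetG, vecG, jetOf_quad, quad]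

variable {κ t : ℝ}

/-- The node field of `ClassIneq` for the vector, from the forms on the cube. -/
theorem node_vec (hg : t < 1 / 4) (hκ : (1 / 4 : ℝ) ^ 2 ≤ κ * (4 * (1 / 4 - t)))
    (h : ∀ s v τ : ℝ, s ∈ Set.Icc (0 : ℝ) 1 → v ∈ Set.Icc (0 : ℝ) 1 → τ ∈ Set.Icc (0 : ℝ) 1 →
      ∀ w₀ w₁ o R : ℝ, 0 ≤ o → 0 ≤ R →
        nodeRed (1 / 4) κ t (jetM vecM (s, s ^ 2 + v * (1 - s ^ 2)))
            (jetC vecC (s, s ^ 2 + v * (1 - s ^ 2))) (chartMu τ) (chartA τ) s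
            (v * (1 - s ^ 2)) w₀ w₁ o R ≤ 0 ∧
          nodeRed (1 / 4) κ t (jetM vecM (s, s ^ 2 + v * (1 - s ^ 2)))
            (jetC vecC (s, s ^ 2 + v * (1 - s ^ 2))) (chartMu τ) (-chartA τ) s
            (v * (1 - s ^ 2)) w₀ w₁ o R ≤ 0)
    {s q : ℝ} (hs : 0 ≤ s) (hq : 0 ≤ q) (hsq : s ^ 2 + q ^ 2 ≤ 1) (μ r c₀ c₁ R y : ℝ)
    (hμ : 4 / 3 * μ ^ 2 + r ^ 2 = 1) (hR : 0 < R) :
    classBlock (jetG vecG (s, s ^ 2 + q ^ 2)) (jetM vecM (s, s ^ 2 + q ^ 2))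
        (jetC vecC (s, s ^ 2 + q ^ 2)) μ r (√6)⁻¹ s q c₀ c₁ 0 1 R y +
      t * (momWeight (√6)⁻¹ c₀ c₁ 0 + y ^ 2 + 1) ≤ 0 := by
  rw [jetG_vecG]
  exact node_of_red (Mf := fun m => jetOf (vecM m)) (Cf := fun e j => jetOf (vecC e j))
    (fun m => continuous_jetOf (contDiff_vec.2.1 m))
    (fun e j => continuous_jetOf (contDiff_vec.2.2 e j)) (fun e p => vecC_four e p)
    hg hκ h hs hq hsq μ r c₀ c₁ R y hμ hR

/-- The middle field of `ClassIneq` for the vector, from the form on the cube. -/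
theorem mid_vec (hg : t < 1 / 4) (hκ : (1 / 4 : ℝ) ^ 2 ≤ κ * (4 * (1 / 4 - t)))
    (h : ∀ s v τ : ℝ, s ∈ Set.Icc (0 : ℝ) 1 → v ∈ Set.Icc (0 : ℝ) 1 → τ ∈ Set.Icc (0 : ℝ) 1 →
      ∀ w₀ w₁ w₂ o R : ℝ, 0 ≤ o → 0 ≤ R →
        midRed (1 / 4) κ t (jetM vecM (s, s ^ 2 + v * (1 - s ^ 2)))
          (jetC vecC (s, s ^ 2 + v * (1 - s ^ 2))) (midMu τ) (midR τ) s
          (v * (1 - s ^ 2)) w₀ w₁ w₂ o R ≤ 0)
    {s q : ℝ} (hs : 0 ≤ s) (hq : 0 ≤ q) (hsq : s ^ 2 + q ^ 2 ≤ 1) (μ r c₀ c₁ c₂ R y : ℝ)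
    (hr : 0 ≤ r) (hμ : 4 / 3 * μ ^ 2 + r ^ 2 = 1) (hR : 0 < R) :
    classMid (jetG vecG (s, s ^ 2 + q ^ 2)) (jetM vecM (s, s ^ 2 + q ^ 2))
        (jetC vecC (s, s ^ 2 + q ^ 2)) μ r s q c₀ c₁ c₂ 1 R y +
      t * (momWeight 0 c₀ c₁ c₂ + y ^ 2 + 1) ≤ 0 := by
  rw [jetG_vecG]
  exact mid_of_red (Mf := fun m => jetOf (vecM m)) (Cf := fun e j => jetOf (vecC e j))
    (fun m => continuous_jetOf (contDiff_vec.2.1 m))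
    (fun e j => continuous_jetOf (contDiff_vec.2.2 e j)) (fun e p => vecC_four e p)
    hg hκ h hs hq hsq μ r c₀ c₁ c₂ R y hr hμ hR

end Vec

end

end Vale.Agent.P098.Cert
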