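import Vale.Agent.P098.Cert.Scale

/-!
P098, the certificate class at arbitrary eigenvalues: the bound on the unit sphere and the sign of
the top form on the whole unit ball, which replaces the regularisation variable.
-/

open Matrix

namespace Vale.Agent.P098.Cert

open Reduce

noncomputable section

variable {G : Jet} {M : Fin 2 → Jet} {C : Fin 2 → Fin 5 → Jet} {s q t : ℝ}

/-- The class form at given eigenvalues, eigendirection and third derivatives. -/
def classReal (G : Jet) (M : Fin 2 → Jet) (C : Fin 2 → Fin 5 → Jet) (L : Fin 4 → ℝ) (c : Fin 4)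
    (u : Fin 4 → ℝ) (s q o R y : ℝ) : ℝ :=
  classOf G M C (L c) s q o R y (usum L u 1) (usum L u 2) (usum L u 3) (weightSum L u 1 c)
    (weightSum L u 2 c) (psum L 2) (psum L 3) (psum L 4) (psum L 5)

/-- A block in terms of the moments it depends on. -/
lemma block_eq_formOf (Φ : Coef) (A : Fin 2 → Coef) (B : Fin 5 → Coef) {L u : Fin 4 → ℝ}
    (hL : ∑ i, L i = 0) (hu : ∑ i, u i = 0) (c : Fin 4) (s q y : ℝ) :
    block Φ A B L c u y q + constPart Φ A B L s =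
      formOf Φ A B (L c) s q y 1 (usum L u 1) (usum L u 2) (usum L u 3) (weightSum L u 1 c)
        (weightSum L u 2 c) (psum L 2) (psum L 3) (psum L 4) (psum L 5) := by
  have hH : ∀ j : ℕ, ∑ i, hsum (j + 1) (L i) (L c) * u i =
      L c * (∑ i, hsum j (L i) (L c) * u i) + usum L u j := fun j => by
    simp only [usum, Finset.mul_sum, ← Finset.sum_add_distrib]
    exact Finset.sum_congr rfl fun i _ => by rw [hsum]; ring
  have h0 : ∑ i, hsum 0 (L i) (L c) * u i = 0 := by simp [hsum]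
  have hU0 : usum L u 0 = 0 := by simp [usum, hu]
  have hP1 : psum L 1 = 0 := by simpa [psum] using hL
  have h1 : ∑ i, hsum 1 (L i) (L c) * u i = 0 := by rw [hH 0, h0, hU0]; ring
  have h2 : ∑ i, hsum 2 (L i) (L c) * u i = usum L u 1 := by rw [hH 1, h1]; ring
  have h3 : ∑ i, hsum 3 (L i) (L c) * u i = usum L u 2 + L c * usum L u 1 := by
    rw [hH 2, h2]; ring
  have h4 : ∑ i, hsum 4 (L i) (L c) * u i =
      usum L u 3 + L c * usum L u 2 + L c ^ 2 * usum L u 1 := by rw [hH 3, h3]; ring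
  simp only [block, constPart, dCoef, formOf, Fin.sum_univ_two, Fin.sum_univ_five,
    Fin.sum_univ_four (f := fun j : Fin 4 => (B j.succ).1 * (psum L ((j : ℕ) + 2) - s * psum L ((j : ℕ) + 1))),
    show (0 : Fin 4).succ = (1 : Fin 5) from rfl, show (1 : Fin 4).succ = (2 : Fin 5) from rfl,
    show (2 : Fin 4).succ = (3 : Fin 5) from rfl, show (3 : Fin 4).succ = (4 : Fin 5) from rfl,
    show ((3 : Fin 4) : ℕ) = 3 from rfl, show ((3 : Fin 5) : ℕ) = 3 from rfl,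
    show ((4 : Fin 5) : ℕ) = 4 from rfl, Fin.val_zero, Fin.val_one, Fin.val_two]
  norm_num only at h0 h1 h2 h3 h4 hP1 ⊢
  rw [h0, h1, h2, h3, h4, hP1]
  ring

lemma moments_smul (ρ r : ℝ) (L u : Fin 4 → ℝ) (c : Fin 4) :
    (∀ k, usum (ρ • L) (r • u) k = ρ ^ k * r * usum L u k) ∧
      (∀ k, psum (ρ • L) k = ρ ^ k * psum L k) ∧
      weightSum (ρ • L) (r • u) 1 c = r ^ 2 * weightSum L u 1 c ∧
      weightSum (ρ • L) (r • u) 2 c = ρ * r ^ 2 * weightSum L u 2 c := by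
  refine ⟨fun k => ?_, fun k => ?_, ?_, ?_⟩
  · simp only [usum, Pi.smul_apply, smul_eq_mul, Finset.mul_sum, mul_pow]
    exact Finset.sum_congr rfl fun i _ => by ring
  · simp only [psum, Pi.smul_apply, smul_eq_mul, Finset.mul_sum, mul_pow]
  · simp only [weightSum, Pi.smul_apply, smul_eq_mul, Finset.mul_sum, hsum]
    exact Finset.sum_congr rfl fun i _ => by split_ifs <;> ring
  · simp only [weightSum, Pi.smul_apply, smul_eq_mul, Finset.mul_sum, hsum]
    exact Finset.sum_congr rfl fun i _ => by split_ifs <;> ring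

/-- A block of the class at the scale `ρ`. -/
theorem block_scale {ρ : ℝ} (hρ : ρ ≠ 0) {L u : Fin 4 → ℝ} (hL : ∑ i, L i = 0)
    (hu : ∑ i, u i = 0) (c : Fin 4) (s q y : ℝ) :
    block (coefPhi ρ G) (coefA ρ M) (coefB ρ C) (ρ • L) c (ρ • u) y q +
        constPart (coefPhi ρ G) (coefA ρ M) (coefB ρ C) (ρ • L) s =
      ρ * classReal G M C L c u s q 1 ρ y := by
  obtain ⟨hU, hP, hW1, hW2⟩ := moments_smul ρ ρ L u c
  rw [block_eq_formOf _ _ _ (by simp [← Finset.mul_sum, hL]) (by simp [← Finset.mul_sum, hu]),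
    hU, hU, hU, hP, hP, hP, hP, hW1, hW2, Pi.smul_apply, smul_eq_mul, classReal,
    ← formOf_scale hρ]
  ring_nf

/-- On the unit sphere of eigenvalues the class form is negative with margin. -/
theorem classReal_unit (h : ClassIneq G M C s q t) {L u : Fin 4 → ℝ} (hL : ∑ i, L i = 0)
    (hu : ∑ i, u i = 0) (h2 : psum L 2 = 1) (c : Fin 4) {R : ℝ} (hR : 0 < R) (y : ℝ) :
    classReal G M C L c u s q 1 R y + t * (weightSum L u 1 c + y ^ 2 + 1) ≤ 0 := by
  obtain ⟨hU, hP, hW1, hW2⟩ := moments_smul R R L u c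
  have hT := twoPoint_of_class h hR
  rw [show R ^ 2 = psum (R • L) 2 by rw [hP, h2, mul_one]] at hT
  have hsum : ∑ i, (R • L) i = 0 := by simp [← Finset.mul_sum, hL]
  have husum : ∑ i, (R • u) i = 0 := by simp [← Finset.mul_sum, hu]
  have hb := (hT.pointIneq hsum).block c (R • u) y husum
  rw [block_eq_formOf _ _ _ hsum husum,
    show (coefPhi R G).1 - R * t = (coefPhi R G).1 + -(R * t) by ring, formOf_pert,
    ← block_eq_formOf _ _ _ hsum husum, block_scale hR.ne' hL hu, hP, h2, hW1] at hb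
  have e : t / R * (R ^ 2 * weightSum L u 1 c + 4 * (R ^ 2 * 1) * 1 ^ 2) =
      R * (t * weightSum L u 1 c + 4 * t) := by field_simp
  rw [e] at hb
  refine le_of_mul_le_mul_left ?_ hR
  linarith

/-- A bound for the squares of the first moment and for the second weight. -/
lemma moment_bounds {L : Fin 4 → ℝ} (hL : ∑ i, L i = 0) (h2 : psum L 2 = 1) (c : Fin 4)
    {u : Fin 4 → ℝ} (hu : ∑ i, u i = 0) :
    usum L u 1 ^ 2 ≤ 5 / 6 * weightSum L u 1 c ∧
      |weightSum L u 2 c| ≤ 10 / 9 * weightSum L u 1 c ∧ 0 ≤ weightSum L u 1 c := by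
  have e1 : L (c.succAbove 0) + L (c.succAbove 1) + L (c.succAbove 2) = -L c := by
    rw [Fin.sum_univ_succAbove _ c, Fin.sum_univ_three] at hL; linarith
  have e2 : L c ^ 2 + (L (c.succAbove 0) ^ 2 + L (c.succAbove 1) ^ 2 + L (c.succAbove 2) ^ 2) = 1 := by
    rw [psum, Fin.sum_univ_succAbove _ c, Fin.sum_univ_three] at h2; exact h2
  have hμ : 4 / 3 * L c ^ 2 ≤ 1 := by
    have e1' := congrArg (· ^ 2) e1
    simp only [neg_sq] at e1'
    linarith [sq_nonneg (L (c.succAbove 0) - L (c.succAbove 1)),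
      sq_nonneg (L (c.succAbove 0) - L (c.succAbove 2)),
      sq_nonneg (L (c.succAbove 1) - L (c.succAbove 2))]
  set μ := L c
  set v := fun a => L (c.succAbove a)
  set w := fun a => u (c.succAbove a)
  have hW : weightSum L u 1 c = u c ^ 2 + 3 * (w 0 ^ 2 + w 1 ^ 2 + w 2 ^ 2) := by
    simp [weightSum, Fin.sum_univ_succAbove _ c, Fin.sum_univ_three, hsum, w, Fin.succAbove_ne]
    ring
  have hW2 : weightSum L u 2 c = 2 * μ * u c ^ 2 +
      ((4 * v 0 + 2 * μ) * w 0 ^ 2 + (4 * v 1 + 2 * μ) * w 1 ^ 2 + (4 * v 2 + 2 * μ) * w 2 ^ 2) := by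
    simp [weightSum, Fin.sum_univ_succAbove _ c, Fin.sum_univ_three, hsum, w, v, μ, Fin.succAbove_ne]
    ring
  have hU : usum L u 1 = μ * u c + (v 0 * w 0 + v 1 * w 1 + v 2 * w 2) := by
    simp [usum, Fin.sum_univ_succAbove _ c, Fin.sum_univ_three, w, v, μ]
  have hW0 : 0 ≤ weightSum L u 1 c := by rw [hW]; positivity
  refine ⟨?_, ?_, hW0⟩
  · have hk : μ ^ 2 + (v 0 ^ 2 + v 1 ^ 2 + v 2 ^ 2) / 3 ≤ 5 / 6 := by
      show μ ^ 2 + (L (c.succAbove 0) ^ 2 + L (c.succAbove 1) ^ 2 + L (c.succAbove 2) ^ 2) / 3 ≤ _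
      linarith
    refine le_trans ?_ (mul_le_mul_of_nonneg_right hk hW0)
    rw [hW, hU]
    linarith [sq_nonneg (3 * μ * w 0 - u c * v 0), sq_nonneg (3 * μ * w 1 - u c * v 1),
      sq_nonneg (3 * μ * w 2 - u c * v 2), sq_nonneg (v 0 * w 1 - v 1 * w 0),
      sq_nonneg (v 0 * w 2 - v 2 * w 0), sq_nonneg (v 1 * w 2 - v 2 * w 1)]
  · have hc : u c ^ 2 ≤ 3 * (w 0 ^ 2 + w 1 ^ 2 + w 2 ^ 2) := by
      have e : w 0 + w 1 + w 2 = -u c := by
        rw [Fin.sum_univ_succAbove _ c, Fin.sum_univ_three] at hu; simp only [w]; linarith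
      have e' := congrArg (· ^ 2) e
      simp only [neg_sq] at e'
      linarith [sq_nonneg (w 0 - w 1), sq_nonneg (w 0 - w 2), sq_nonneg (w 1 - w 2)]
    have hell : ∀ a, 3 * v a ^ 2 + 2 * μ * v a + 3 * μ ^ 2 ≤ 2 := by
      have key : ∀ x y z : ℝ, x + y + z = -μ → μ ^ 2 + (x ^ 2 + y ^ 2 + z ^ 2) = 1 →
          3 * x ^ 2 + 2 * μ * x + 3 * μ ^ 2 ≤ 2 := fun x y z g g' => by
        have g2 : (y + z) ^ 2 = (μ + x) ^ 2 := by rw [show y + z = -(μ + x) by linarith, neg_sq]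
        linarith [sq_nonneg (y - z)]
      intro a
      fin_cases a
      · exact key _ _ _ e1 e2
      · exact key (v 1) (v 0) (v 2) (by linarith [e1]) (by linarith [e2])
      · exact key (v 2) (v 0) (v 1) (by linarith [e1]) (by linarith [e2])
    have ha : ∀ a, |4 * v a + 2 * μ| ≤ 10 / 3 ∧ |4 * v a + 8 * μ| ≤ 20 / 3 := fun a =>
      ⟨abs_le_of_sq_le_sq (by nlinarith [hell a, sq_nonneg (v a - 5 * μ)]) (by norm_num),
        abs_le_of_sq_le_sq (by nlinarith [hell a, sq_nonneg (5 * v a - μ)]) (by norm_num)⟩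
    simp only [abs_le] at ha
    have b1 := fun a => mul_le_mul_of_nonneg_right (ha a).1.2 (sq_nonneg (w a))
    have b2 := fun a => mul_le_mul_of_nonneg_right (ha a).1.1 (sq_nonneg (w a))
    have b3 := fun a => mul_le_mul_of_nonneg_right (ha a).2.2 (sq_nonneg (w a))
    have b4 := fun a => mul_le_mul_of_nonneg_right (ha a).2.1 (sq_nonneg (w a))
    rw [hW2, hW, abs_le]
    constructor
    · rcases le_total 0 (2 * μ + 10 / 9) with h' | h'
      · linarith [b2 0, b2 1, b2 2, mul_nonneg h' (sq_nonneg (u c))]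
      · linarith [b4 0, b4 1, b4 2, mul_le_mul_of_nonpos_left hc h']
    · rcases le_total (2 * μ) (10 / 9) with h' | h'
      · linarith [b1 0, b1 1, b1 2, mul_le_mul_of_nonneg_right h' (sq_nonneg (u c))]
      · linarith [b3 0, b3 1, b3 2, mul_le_mul_of_nonneg_left hc (sub_nonneg.2 h')]

/-- A quadratic that is bounded above has nonpositive top coefficient. -/
lemma coef_nonpos {a b : ℝ} (h : ∀ r : ℝ, r ^ 2 * a + b ≤ 0) : a ≤ 0 := by
  by_contra ha
  rw [not_le] at ha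
  have h1 := h (√((|b| + 1) / a))
  rw [Real.sq_sqrt (by positivity), div_mul_cancel₀ _ ha.ne'] at h1
  linarith [neg_abs_le b]

/-- The top form is negative on the whole unit ball of eigenvalues. -/
theorem top_disc (h : ClassIneq G M C s q t) (ht : 0 < t) {L u : Fin 4 → ℝ} (hL : ∑ i, L i = 0)
    (h2 : psum L 2 ≤ 1) (hu : ∑ i, u i = 0) (c : Fin 4) (y : ℝ) :
    topOf G M y (usum L u 1) (usum L u 2) (weightSum L u 1 c) (weightSum L u 2 c) +
      t / 16 * (weightSum L u 1 c + y ^ 2) ≤ 0 := by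
  have hP : 0 ≤ psum L 2 := Finset.sum_nonneg fun i _ => sq_nonneg _
  set θ := √(psum L 2)
  have hθ : 0 ≤ θ := Real.sqrt_nonneg _
  have hθ1 : θ ≤ 1 := Real.sqrt_le_one.2 h2
  obtain ⟨L₁, hL₁, h₁, hLL⟩ : ∃ L₁ : Fin 4 → ℝ, ∑ i, L₁ i = 0 ∧ psum L₁ 2 = 1 ∧ L = θ • L₁ := by
    rcases eq_or_ne θ 0 with h0 | h0
    · refine ⟨![√(1 / 2), -√(1 / 2), 0, 0], by simp [Fin.sum_univ_four], ?_, ?_⟩
      · simp [psum, Fin.sum_univ_four, Real.sq_sqrt]
        norm_num
      · have hz : psum L 2 = 0 := by rw [← Real.sq_sqrt hP]; simp [θ] at h0 ⊢; linarith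
        funext i
        simpa [h0] using (Finset.sum_eq_zero_iff_of_nonneg fun i _ => sq_nonneg (L i)).1 hz i
          (Finset.mem_univ i)
    · refine ⟨θ⁻¹ • L, by simp [← Finset.mul_sum, hL], ?_, by rw [smul_inv_smul₀ h0]⟩
      rw [(moments_smul θ⁻¹ 1 L u c).2.1, inv_pow, Real.sq_sqrt hP]
      exact inv_mul_cancel₀ fun hz => h0 (by simp [θ, hz])
  obtain ⟨hU, -, hW1, hW2⟩ := moments_smul θ 1 L₁ u c
  simp only [one_smul, ← hLL, one_pow, mul_one, one_mul] at hU hW1 hW2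
  rw [hU, hU, hW1, hW2]
  set U₁ := usum L₁ u 1
  set U₂ := usum L₁ u 2
  set W₁ := weightSum L₁ u 1 c
  set W₂ := weightSum L₁ u 2 c
  -- the top form at the unit eigenvalues
  have top1 : topOf G M y (θ * U₁) (θ * U₂) (θ ^ 2 * W₁) (θ ^ 2 * W₂) + t * (θ ^ 2 * W₁ + y ^ 2) ≤ 0 := by
    set Z := classOf G M C (L₁ c) s q 1 1 0 0 0 0 0 0 (psum L₁ 2) (psum L₁ 3) (psum L₁ 4) (psum L₁ 5)
    refine coef_nonpos (b := Z + t) fun r => ?_
    have hz : ∀ x : ℝ, classOf G M C (L₁ c) s q 1 1 (x * y) (x * (θ * U₁)) (x * (θ * U₂))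
        (x * (θ * usum L₁ u 3)) (x ^ 2 * (θ ^ 2 * W₁)) (x ^ 2 * (θ ^ 2 * W₂))
        (psum L₁ 2) (psum L₁ 3) (psum L₁ 4) (psum L₁ 5) +
          t * (x ^ 2 * (θ ^ 2 * W₁) + (x * y) ^ 2 + 1) ≤ 0 := fun x => by
      have := classReal_unit h hL₁ (u := (x * θ) • u) (by simp [← Finset.mul_sum, hu]) h₁ c one_pos
        (x * y)
      obtain ⟨gU, -, gW1, gW2⟩ := moments_smul 1 (x * θ) L₁ u c
      simp only [one_smul, one_pow, one_mul] at gU gW1 gW2
      simp only [classReal, gU, gW1, gW2] at this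
      simp only [← mul_assoc, ← mul_pow]
      convert this using 3
    have hp := classOf_parallel G M C r (L₁ c) s q 1 1 y (θ * U₁) (θ * U₂) (θ * usum L₁ u 3)
      (θ ^ 2 * W₁) (θ ^ 2 * W₂) (psum L₁ 2) (psum L₁ 3) (psum L₁ 4) (psum L₁ 5)
    have a1 := hz r
    have a2 := hz (-r)
    simp only [neg_sq] at a2
    linarith
  obtain ⟨hbU, hbW, hW0⟩ := moment_bounds hL₁ h₁ c hu
  set b := 10 / 9 * |(M 1).1|
  have hG : 0 < G.1 := lt_of_lt_of_le ht h.pos
  have hb : 0 ≤ b := by positivity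
  have hab : 13 / 6 * (M 0).1 + 2 * b + 5 / 21 * G.1 + t ≤ 0 := by
    rcases abs_cases (M 1).1 with ⟨e, -⟩ | ⟨e, -⟩ <;> simp only [b, e] <;>
      linarith [h.remainder₁, h.remainder₂]
  -- the remainder
  have r1 : θ * (1 + θ) * (M 1).1 * W₂ ≤ θ * (1 + θ) * (b * W₁) := by
    rw [mul_assoc]
    refine mul_le_mul_of_nonneg_left ((le_abs_self _).trans ?_) (by positivity)
    rw [abs_mul]
    exact (mul_le_mul_of_nonneg_left hbW (abs_nonneg _)).trans_eq (by simp only [b]; ring)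
  have r2 : θ * y * U₁ * G.1 - y ^ 2 * G.1 ≤
      θ ^ 2 * (5 / 21 * G.1 * W₁) - G.1 / 8 * y ^ 2 := by
    have := mul_nonneg hG.le (sq_nonneg (7 * y - 4 * θ * U₁))
    have := mul_le_mul_of_nonneg_left hbU (mul_nonneg hG.le (sq_nonneg θ))
    linarith
  have r3 : -(M 0).1 * θ ^ 2 * U₁ ^ 2 ≤ -(M 0).1 * θ ^ 2 * (5 / 6 * W₁) :=
    mul_le_mul_of_nonneg_left hbU (mul_nonneg (by linarith [h.neg]) (sq_nonneg θ))
  have r4 : (M 0).1 + θ * ((M 0).1 + b) + θ ^ 2 * ((M 0).1 / 6 + 5 / 21 * G.1 + b) ≤ -t := by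
    have hn := h.neg
    rcases le_total 0 ((M 0).1 / 6 + 5 / 21 * G.1 + b) with hc | hc
    · nlinarith [mul_nonneg (mul_nonneg hθ (sub_nonneg.2 hθ1)) hc]
    · nlinarith [mul_nonpos_of_nonneg_of_nonpos (sq_nonneg θ) hc, mul_nonneg hθ hb]
  have r5 := mul_le_mul_of_nonneg_right r4 hW0
  have rem : θ * y * U₁ * G.1 - y ^ 2 * G.1 - (M 0).1 * θ ^ 2 * U₁ ^ 2 +
      (1 + θ + θ ^ 2) * (M 0).1 * W₁ + θ * (1 + θ) * (M 1).1 * W₂ + t / 8 * (W₁ + y ^ 2) ≤ 0 := by
    have := mul_le_mul_of_nonneg_right h.pos (sq_nonneg y)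
    have := mul_nonneg ht.le hW0
    linarith
  have split : topOf G M y (θ * U₁) (θ ^ 2 * U₂) W₁ (θ * W₂) =
      θ * topOf G M y (θ * U₁) (θ * U₂) (θ ^ 2 * W₁) (θ ^ 2 * W₂) +
        (1 - θ) * (θ * y * U₁ * G.1 - y ^ 2 * G.1 - (M 0).1 * θ ^ 2 * U₁ ^ 2 +
          (1 + θ + θ ^ 2) * (M 0).1 * W₁ + θ * (1 + θ) * (M 1).1 * W₂) := by
    simp only [topOf]; ring
  rw [pow_one, split]
  have k1 := mul_nonpos_of_nonneg_of_nonpos hθ top1
  have k2 := mul_nonpos_of_nonneg_of_nonpos (sub_nonneg.2 hθ1) rem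
  have k3 : 0 ≤ t * W₁ * (θ ^ 3 + (1 - θ) / 8 - 1 / 16) := by
    refine mul_nonneg (mul_nonneg ht.le hW0) ?_
    rcases le_total θ (1 / 2) with hh | hh
    · linarith [pow_nonneg hθ 3]
    · have : (1 / 2 : ℝ) ^ 3 ≤ θ ^ 3 := by gcongr
      linarith
  have k4 : 0 ≤ t * y ^ 2 * (θ + (1 - θ) / 8 - 1 / 16) :=
    mul_nonneg (mul_nonneg ht.le (sq_nonneg y)) (by linarith)
  linarith

end

end Vale.Agent.P098.Cert
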